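import Vale.Agent.P253.R2.H618.Rad
import Vale.Agent.P253.R2.H445.Defs
import Vale.Agent.P253.H595.Vf

/-!
P253: a holomorphic vector field whose flow preserves the distance is a Killing field: the Lie
derivative of the metric along it vanishes.
-/

open scoped Manifold ContDiff Topology Bundle
open Set Metric Complex Filter Bundle IsManifold Manifold Vale.Agent.P253.Mfd
  Vale.Agent.P253.H595 Vale.Agent.P253.R2 Vale.Agent.P253.R2.H618

set_option maxSynthPendingDepth 3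
set_option linter.unusedSectionVars false

noncomputable section

namespace Vale.Agent.P253.H805

theorem slope_right {F : Type*} [NormedAddCommGroup F] [NormedSpace ℝ F] {Q : ℝ → F} {q : F}
    (h : HasDerivAt Q q 0) : Tendsto (fun t : ℝ => t⁻¹ • (Q t - Q 0)) (𝓝[>] 0) (𝓝 q) := by
  have h1 := hasDerivAt_iff_tendsto_slope_zero.1 h
  simp only [zero_add] at h1
  have h2 : (𝓝[>] (0:ℝ)) ≤ 𝓝[≠] (0:ℝ) :=
    nhdsWithin_mono _ fun s (hs : s ∈ Ioi (0:ℝ)) => (ne_of_gt hs : s ≠ 0)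
  exact h1.mono_left h2

theorem slope_left {F : Type*} [NormedAddCommGroup F] [NormedSpace ℝ F] {Q : ℝ → F} {q : F}
    (h : HasDerivAt Q q 0) : Tendsto (fun t : ℝ => t⁻¹ • (Q t - Q 0)) (𝓝[<] 0) (𝓝 q) := by
  have h1 := hasDerivAt_iff_tendsto_slope_zero.1 h
  simp only [zero_add] at h1
  have h2 : (𝓝[<] (0:ℝ)) ≤ 𝓝[≠] (0:ℝ) :=
    nhdsWithin_mono _ fun s (hs : s ∈ Iio (0:ℝ)) => (ne_of_lt hs : s ≠ 0)
  exact h1.mono_left h2

/-! ### the flow in a chart -/

section flow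

variable {E : Type*} [NormedAddCommGroup E] [NormedSpace ℂ E] [FiniteDimensional ℂ E]
  {M : Type*} [MetricSpace M] [ChartedSpace E M] [IsManifold 𝓘(ℂ, E) 1 M]
  {ψ : ℂ → M → M} {Z : (x : M) → TangentSpace 𝓘(ℂ, E) x}

/-- the flow in a chart -/
def FE (ψ : ℂ → M → M) (e : OpenPartialHomeomorph M E) (u : ℂ × E) : E := e (ψ u.1 (e.symm u.2))

/-- the domain of the flow in a chart -/
def OE (ψ : ℂ → M → M) (e : OpenPartialHomeomorph M E) : Set (ℂ × E) :=
  {u | u.2 ∈ e.target ∧ ψ u.1 (e.symm u.2) ∈ e.source}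

theorem isOpen_OE (hψ : IsHolCFlow E ψ) (e : OpenPartialHomeomorph M E) : IsOpen (OE ψ e) := by
  have h1 : ContinuousOn (fun u : ℂ × E => (u.1, e.symm u.2)) {u | u.2 ∈ e.target} :=
    continuousOn_fst.prodMk (e.continuousOn_symm.comp continuousOn_snd fun u hu => hu)
  have h3 : ContinuousOn (fun u : ℂ × E => ψ u.1 (e.symm u.2)) {u : ℂ × E | u.2 ∈ e.target} :=
    hψ.holo.continuous.comp_continuousOn h1
  exact h3.isOpen_inter_preimage (e.open_target.preimage continuous_snd) e.open_source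

theorem differentiableAt_FE (hψ : IsHolCFlow E ψ) {e : OpenPartialHomeomorph M E}
    (he : e ∈ maximalAtlas 𝓘(ℂ, E) 1 M) {u : ℂ × E} (hu : u ∈ OE ψ e) :
    DifferentiableAt ℂ (FE ψ e) u := by
  have h3 : MDifferentiableAt 𝓘(ℂ, ℂ × E) (𝓘(ℂ, ℂ).prod 𝓘(ℂ, E))
      (fun u : ℂ × E => (u.1, e.symm u.2)) u := by
    refine MDifferentiableAt.prodMk differentiableAt_fst.mdifferentiableAt ?_
    exact MDifferentiableAt.comp u (g := e.symm) (f := Prod.snd)
      (mdiff_chart_symm he hu.1) differentiableAt_snd.mdifferentiableAt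
  have h4 : MDifferentiableAt 𝓘(ℂ, ℂ × E) 𝓘(ℂ, E)
      (fun u : ℂ × E => e (ψ u.1 (e.symm u.2))) u :=
    MDifferentiableAt.comp u (g := e) (f := fun u : ℂ × E => ψ u.1 (e.symm u.2))
      (mdiff_chart he hu.2)
      (MDifferentiableAt.comp u (g := fun q : ℂ × M => ψ q.1 q.2)
        (f := fun u : ℂ × E => (u.1, e.symm u.2))
        ((hψ.holo (u.1, e.symm u.2)).mdifferentiableAt (by simp)) h3)
  exact h4.differentiableAt

theorem zero_mem_OE (hψ : IsHolCFlow E ψ) {e : OpenPartialHomeomorph M E} {y : E}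
    (hy : y ∈ e.target) : ((0:ℂ), y) ∈ OE ψ e :=
  ⟨hy, by simp only [hψ.zero]; exact e.map_target hy⟩

theorem hasDerivAt_FE (hI : ∀ x ζ, IntAt Z (fun w => ψ w x) ζ) {e : OpenPartialHomeomorph M E}
    (he : e ∈ maximalAtlas 𝓘(ℂ, E) 1 M) {ζ : ℂ} {z : E} (hu : (ζ, z) ∈ OE ψ e) :
    HasDerivAt (fun w => FE ψ e (w, z)) (comps Z e (e.symm (FE ψ e (ζ, z)))) ζ := by
  have h1 := (hI (e.symm z) ζ).hasDerivAt he hu.2
  have h2 : e.symm (FE ψ e (ζ, z)) = ψ ζ (e.symm z) := e.left_inv hu.2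
  rw [h2]
  exact h1

/-- the differential of the flow in the direction of the manifold -/
def DE (ψ : ℂ → M → M) (e : OpenPartialHomeomorph M E) (z : E) (ζ : ℂ) : E →L[ℂ] E :=
  (fderiv ℂ (FE ψ e) (ζ, z)).comp (ContinuousLinearMap.inr ℂ ℂ E)

theorem hasFDerivAt_FE (hψ : IsHolCFlow E ψ) {e : OpenPartialHomeomorph M E}
    (he : e ∈ maximalAtlas 𝓘(ℂ, E) 1 M) {ζ : ℂ} {z : E} (hu : (ζ, z) ∈ OE ψ e) :
    HasFDerivAt (fun w => FE ψ e (ζ, w)) (DE ψ e z ζ) z :=
  HasFDerivAt.comp (g := FE ψ e) (f := fun w : E => (ζ, w)) z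
    (differentiableAt_FE hψ he hu).hasFDerivAt (hasFDerivAt_prodMk_right ζ z)

theorem DE_zero (hψ : IsHolCFlow E ψ) {e : OpenPartialHomeomorph M E}
    (he : e ∈ maximalAtlas 𝓘(ℂ, E) 1 M) {z : E} (hz : z ∈ e.target) (a : E) :
    DE ψ e z 0 a = a := by
  have h1 := hasFDerivAt_FE hψ he (zero_mem_OE hψ hz)
  have h2 : (fun w : E => FE ψ e (0, w)) =ᶠ[𝓝 z] id := by
    filter_upwards [e.open_target.mem_nhds hz] with w hw
    simp only [FE]
    rw [hψ.zero, e.right_inv hw, id]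
  have h3 := h1.unique ((hasFDerivAt_id z).congr_of_eventuallyEq h2)
  rw [h3]
  rfl

/-- the variational equation at time `0` -/
theorem hasDerivAt_DE (hψ : IsHolCFlow E ψ) (hI : ∀ x ζ, IntAt Z (fun w => ψ w x) ζ)
    (hZ : IsHolField Z) {e : OpenPartialHomeomorph M E} (he : e ∈ maximalAtlas 𝓘(ℂ, E) 1 M) {z : E}
    (hz : z ∈ e.target) (a : E) :
    HasDerivAt (fun s : ℝ => DE ψ e z s a)
      (fderiv ℝ (fun y : E => comps Z e (e.symm y)) z a) 0 := by
  have hCE : CompleteSpace E := FiniteDimensional.complete ℂ E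
  have hΩo := isOpen_OE hψ e
  have hq := zero_mem_OE hψ (e := e) hz
  have hsm : ContDiffOn ℂ ∞ (FE ψ e) (OE ψ e) :=
    contDiffOn_of_differentiableOn_complex hΩo
      fun u hu => (differentiableAt_FE hψ he hu).differentiableWithinAt
  have hFd : ∀ q ∈ OE ψ e, HasFDerivAt (FE ψ e) (fderiv ℂ (FE ψ e) q) q := fun q hq =>
    (differentiableAt_FE hψ he hq).hasFDerivAt
  have hDd : HasFDerivAt (fderiv ℂ (FE ψ e)) (fderiv ℂ (fderiv ℂ (FE ψ e)) (0, z)) (0, z) :=
    (((hsm.fderiv_of_isOpen (m := ∞) hΩo (by simp)).contDiffAt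
      (hΩo.mem_nhds hq)).differentiableAt (by simp)).hasFDerivAt
  set v : E → E := fun y : E => comps Z e (e.symm y) with hv
  have hvd : HasFDerivAt v (fderiv ℂ v z) z :=
    ((hZ e he z hz).differentiableAt (e.open_target.mem_nhds hz)).hasFDerivAt
  have h1 : HasDerivAt (fun ζ : ℂ => fderiv ℂ (FE ψ e) (ζ, z) (0, a))
      (fderiv ℂ (fderiv ℂ (FE ψ e)) (0, z) (1, 0) (0, a)) ((0:ℝ):ℂ) := by
    rw [ofReal_zero]
    have h3 : HasDerivAt (fun ζ : ℂ => (ζ, z)) ((1 : ℂ), (0 : E)) 0 :=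
      (hasDerivAt_id _).prodMk (hasDerivAt_const _ _)
    have h4 := HasFDerivAt.comp_hasDerivAt (0:ℂ) (f := fun ζ : ℂ => (ζ, z)) hDd h3
    have h5 := h4.clm_apply (hasDerivAt_const (0:ℂ) ((0 : ℂ), a))
    simp only [map_zero, add_zero, Function.comp_apply] at h5
    exact h5
  have hsymm : IsSymmSndFDerivAt ℂ (FE ψ e) (0, z) :=
    (hsm.contDiffAt (hΩo.mem_nhds hq)).isSymmSndFDerivAt (by
      rw [minSmoothness_of_isRCLikeNormedField]
      exact WithTop.coe_le_coe.2 le_top)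
  have h2 : fderiv ℂ (fderiv ℂ (FE ψ e)) (0, z) (1, 0) (0, a) = fderiv ℂ v z a := by
    rw [hsymm (1, 0) (0, a)]
    have h5 : HasFDerivAt (fun w : E => fderiv ℂ (FE ψ e) (0, w) (1, 0))
        (((ContinuousLinearMap.apply ℂ E ((1 : ℂ), (0 : E))).comp
          (fderiv ℂ (fderiv ℂ (FE ψ e)) (0, z))).comp (ContinuousLinearMap.inr ℂ ℂ E)) z := by
      have h6 := (ContinuousLinearMap.apply ℂ E ((1 : ℂ), (0 : E))).hasFDerivAt.comp ((0:ℂ), z) hDd
      exact HasFDerivAt.comp z h6 (hasFDerivAt_prodMk_right (0:ℂ) z)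
    have h6 : v =ᶠ[𝓝 z] (fun w : E => fderiv ℂ (FE ψ e) (0, w) (1, 0)) := by
      filter_upwards [e.open_target.mem_nhds hz] with w hw
      have hw' := zero_mem_OE hψ (e := e) hw
      have h8 : HasDerivAt (fun ζ : ℂ => FE ψ e (ζ, w)) (fderiv ℂ (FE ψ e) (0, w) (1, 0)) 0 := by
        have h11 : HasDerivAt (fun ζ : ℂ => (ζ, w)) ((1 : ℂ), (0 : E)) 0 :=
          (hasDerivAt_id _).prodMk (hasDerivAt_const _ _)
        exact HasFDerivAt.comp_hasDerivAt (0:ℂ) (f := fun ζ : ℂ => (ζ, w)) (hFd _ hw') h11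
      have h9 := (hasDerivAt_FE hI he hw').unique h8
      have h10 : FE ψ e (0, w) = w := by
        simp only [FE]
        rw [hψ.zero, e.right_inv hw]
      rw [h10] at h9
      exact h9
    have h8 := (h5.congr_of_eventuallyEq h6).unique hvd
    have h9 := congrArg (fun T : E →L[ℂ] E => T a) h8
    simpa using h9
  rw [h2] at h1
  have h6 : fderiv ℝ v z = (fderiv ℂ v z).restrictScalars ℝ := (hvd.restrictScalars ℝ).fderiv
  have h7 : HasDerivAt (fun s : ℝ => (s:ℂ)) 1 0 := (hasDerivAt_id (0:ℝ)).ofReal_comp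
  have h8 := HasDerivAt.scomp (g₁ := fun ζ : ℂ => fderiv ℂ (FE ψ e) (ζ, z) (0, a)) (0:ℝ) h1 h7
  rw [one_smul] at h8
  rw [h6]
  exact h8

theorem hasDerivAt_FE_real (hψ : IsHolCFlow E ψ) (hI : ∀ x ζ, IntAt Z (fun w => ψ w x) ζ)
    {e : OpenPartialHomeomorph M E} (he : e ∈ maximalAtlas 𝓘(ℂ, E) 1 M) {z : E}
    (hz : z ∈ e.target) :
    HasDerivAt (fun s : ℝ => FE ψ e (s, z)) (comps Z e (e.symm z)) 0 := by
  have h1 := hasDerivAt_FE hI he (zero_mem_OE hψ hz)
  have h2 : FE ψ e (0, z) = z := by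
    simp only [FE]
    rw [hψ.zero, e.right_inv hz]
  rw [h2, ← ofReal_zero] at h1
  have h7 : HasDerivAt (fun s : ℝ => (s:ℂ)) 1 0 := (hasDerivAt_id (0:ℝ)).ofReal_comp
  have h8 := HasDerivAt.scomp (g₁ := fun ζ : ℂ => FE ψ e (ζ, z)) (0:ℝ) h1 h7
  rw [one_smul] at h8
  exact h8

end flow

variable {E : Type*} [NormedAddCommGroup E] [NormedSpace ℂ E] [FiniteDimensional ℂ E]
  {M : Type*} [MetricSpace M] [ChartedSpace E M]
  [IsManifold 𝓘(ℂ, E) 1 M] [IsManifold 𝓘(ℝ, E) ∞ M]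
  [RiemannianBundle (fun x : M => TangentSpace 𝓘(ℝ, E) x)]
  [IsContMDiffRiemannianBundle 𝓘(ℝ, E) ∞ E (fun x : M => TangentSpace 𝓘(ℝ, E) x)]
  [IsRiemannianManifold 𝓘(ℝ, E) M]

/-- a map which does not decrease distances near a point does not decrease the lengths of the tangent
vectors at that point -/
theorem length_le_of_expand (hK : IsKahler E M) {e e' : OpenPartialHomeomorph M E}
    (he : e ∈ maximalAtlas 𝓘(ℂ, E) 1 M) (he' : e' ∈ maximalAtlas 𝓘(ℂ, E) 1 M) {x : M}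
    (hx : x ∈ e.source) {f : M → M} (hfx : f x ∈ e'.source) {L : E →L[ℝ] E}
    (hL : HasFDerivAt (fun z => e' (f (e.symm z))) L (e x)) (hfc : ContinuousAt f x)
    (hd : ∀ᶠ y in 𝓝 x, dist x y ≤ dist (f x) (f y)) (a : E) :
    chartG e (e x) a a ≤ chartG e' (e' (f x)) (L a) (L a) := by
  have hLK := localKahler_chartG hK he
  have hLK' := localKahler_chartG hK he'
  have hxt := e.map_source hx
  have hxt' := e'.map_source hfx
  set N : E → ℝ := fun v => √(chartG e (e x) v v) with hN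
  set N' : E → ℝ := fun v => √(chartG e' (e' (f x)) v v) with hN'
  have hNr : ∀ t : ℝ, 0 ≤ t → ∀ v : E, N (t • v) = t * N v := by
    intro t ht v
    simp only [hN, map_smul, smul_apply, smul_eq_mul]
    rw [← mul_assoc, Real.sqrt_mul (mul_self_nonneg t), Real.sqrt_mul_self ht]
  have hNr' : ∀ t : ℝ, 0 ≤ t → ∀ v : E, N' (t • v) = t * N' v := by
    intro t ht v
    simp only [hN', map_smul, smul_apply, smul_eq_mul]
    rw [← mul_assoc, Real.sqrt_mul (mul_self_nonneg t), Real.sqrt_mul_self ht]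
  have hN'c : Continuous N' := by
    simp only [hN']
    fun_prop
  have hline0 : HasDerivAt (fun t : ℝ => e x + t • a) a 0 := by
    simpa using ((hasDerivAt_id (0:ℝ)).smul_const a).const_add (e x)
  have hL0 : HasFDerivAt (fun z => e' (f (e.symm z))) L (e x + (0:ℝ) • a) := by
    rw [zero_smul, add_zero]
    exact hL
  have hslope := slope_right (HasFDerivAt.comp_hasDerivAt (0:ℝ) hL0 hline0)
  simp only [Function.comp_apply, zero_smul, add_zero] at hslope
  have hlim := (hN'c.tendsto _).comp hslope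
  have hline : Tendsto (fun t : ℝ => e x + t • a) (𝓝[>] 0) (𝓝 (e x)) := by
    have h3 : Tendsto (fun t : ℝ => e x + t • a) (𝓝 0) (𝓝 (e x + (0:ℝ) • a)) := by
      apply Continuous.tendsto
      fun_prop
    rw [zero_smul, add_zero] at h3
    exact h3.mono_left nhdsWithin_le_nhds
  have hlines : Tendsto (fun t : ℝ => e.symm (e x + t • a)) (𝓝[>] 0) (𝓝 x) := by
    have h4 := (e.continuousAt_symm hxt).tendsto.comp hline
    rw [e.left_inv hx] at h4
    exact h4
  have hf1 : Tendsto (fun t : ℝ => f (e.symm (e x + t • a))) (𝓝[>] 0) (𝓝 (f x)) :=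
    hfc.tendsto.comp hlines
  have hf : Tendsto (fun t : ℝ => e' (f (e.symm (e x + t • a)))) (𝓝[>] 0) (𝓝 (e' (f x))) :=
    (e'.continuousAt hfx).tendsto.comp hf1
  have key : ∀ η > 0, N a ≤ (1 + η) ^ 2 * N' (L a) := by
    intro η hη
    obtain ⟨δ₁, hδ₁, hb1, h1⟩ := norm_le_near hK he hx hη
    obtain ⟨δ₂, hδ₂, hb2, h2⟩ := dist_le_near hK he' hfx hη
    refine ge_of_tendsto (hlim.const_mul ((1 + η) ^ 2)) ?_
    filter_upwards [self_mem_nhdsWithin, hlines.eventually (ball_mem_nhds x hδ₁),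
      hlines.eventually hd, hf.eventually (ball_mem_nhds _ hδ₂),
      hf1.eventually (e'.open_source.mem_nhds hfx),
      hline.eventually (e.open_target.mem_nhds hxt)] with t ht h3 h4 h5 h6 h7
    have ht' : (0:ℝ) < t := ht
    have h8 := h1 _ h3
    rw [e.right_inv h7, add_sub_cancel_left] at h8
    have h9 := h2 _ (mem_ball_self hδ₂) _ h5
    rw [e'.left_inv hfx, e'.left_inv h6] at h9
    have h10 : t * N a ≤ (1 + η) * dist x (e.symm (e x + t • a)) := by
      rw [← hNr t ht'.le]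
      exact h8
    simp only [Function.comp_apply]
    rw [e.left_inv hx]
    set w : E := e' (f (e.symm (e x + t • a))) - e' (f x) with hw
    have h11 : N' (t⁻¹ • w) = t⁻¹ * N' w := hNr' _ (inv_pos.2 ht').le _
    rw [h11]
    have h12 : t * N a ≤ (1 + η) ^ 2 * N' w := by
      calc t * N a ≤ (1 + η) * dist x (e.symm (e x + t • a)) := h10
        _ ≤ (1 + η) * dist (f x) (f (e.symm (e x + t • a))) := by gcongr
        _ ≤ (1 + η) * ((1 + η) * N' w) := by
            gcongr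
        _ = _ := by ring
    have h13 : t⁻¹ * (t * N a) ≤ t⁻¹ * ((1 + η) ^ 2 * N' w) :=
      mul_le_mul_of_nonneg_left h12 (inv_pos.2 ht').le
    rw [inv_mul_cancel_left₀ ht'.ne'] at h13
    calc N a ≤ t⁻¹ * ((1 + η) ^ 2 * N' w) := h13
      _ = _ := by ring
  have h1 : N a ≤ N' (L a) := by
    have h2 : Tendsto (fun η : ℝ => (1 + η) ^ 2 * N' (L a)) (𝓝[>] 0)
        (𝓝 ((1 + 0) ^ 2 * N' (L a))) := by
      apply tendsto_nhdsWithin_of_tendsto_nhds
      apply Continuous.tendsto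
      fun_prop
    rw [add_zero, one_pow, one_mul] at h2
    refine ge_of_tendsto h2 ?_
    filter_upwards [self_mem_nhdsWithin] with η hη using key η hη
  exact (Real.sqrt_le_sqrt_iff (G_nonneg hLK' hxt' _)).1 h1

section kill

variable {ψ : ℂ → M → M} {Z : (x : M) → TangentSpace 𝓘(ℂ, E) x}

/-- the energy of the transported vector -/
theorem exists_energy (hK : IsKahler E M) (hZ : IsHolField Z) (hψ : IsHolCFlow E ψ)
    (hI : ∀ x ζ, IntAt Z (fun w => ψ w x) ζ) {e : OpenPartialHomeomorph M E}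
    (he : e ∈ maximalAtlas 𝓘(ℂ, E) 1 M) {z : E} (hz : z ∈ e.target) (a : E) :
    ∃ Q : ℝ → ℝ, HasDerivAt Q (2 * Sfun (chartG e) (fun y : E => comps Z e (e.symm y)) z a) 0 ∧
      Q 0 = chartG e z a a ∧ ∀ᶠ s : ℝ in 𝓝 0,
        (∀ y, dist (e.symm z) y ≤ dist (ψ s (e.symm z)) (ψ s y)) → Q 0 ≤ Q s := by
  have hLK := localKahler_chartG hK he
  have hF0 : FE ψ e (((0:ℝ):ℂ), z) = z := by
    simp only [FE, ofReal_zero]
    rw [hψ.zero, e.right_inv hz]
  have hD0 : DE ψ e z ((0:ℝ):ℂ) a = a := by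
    rw [ofReal_zero]
    exact DE_zero hψ he hz a
  have hQ := hasDerivAt_energy (G := chartG e) (v := fun y : E => comps Z e (e.symm y)) (z := z)
    (hLK.differentiableAt hz) (fun v w => hLK.symm _ hz v w)
    (hasDerivAt_FE_real hψ hI he hz) hF0 (hasDerivAt_DE hψ hI hZ he hz a) hD0
  refine ⟨_, hQ, ?_, ?_⟩
  · simp only [hF0, hD0]
  · have h1 : ∀ᶠ s : ℝ in 𝓝 0, ((s:ℂ), z) ∈ OE ψ e := by
      have h2 : Continuous fun s : ℝ => ((s:ℂ), z) := by fun_prop
      refine h2.continuousAt.eventually ((isOpen_OE hψ e).mem_nhds ?_)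
      simp only [ofReal_zero]
      exact zero_mem_OE hψ hz
    filter_upwards [h1] with s hs hd
    simp only [hF0, hD0]
    have hx : e.symm z ∈ e.source := e.map_target hz
    have h3 : HasFDerivAt (fun w => e (ψ s (e.symm w))) ((DE ψ e z s).restrictScalars ℝ)
        (e (e.symm z)) := by
      rw [e.right_inv hz]
      exact (hasFDerivAt_FE hψ he hs).restrictScalars ℝ
    have h4 : ContinuousAt (ψ s) (e.symm z) := by
      have h5 : Continuous (fun x : M => ψ s x) :=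
        hψ.holo.continuous.comp (continuous_const.prodMk continuous_id)
      exact h5.continuousAt
    have h5 := length_le_of_expand hK he he hx (f := ψ s) hs.2 h3 h4 (Eventually.of_forall hd) a
    rw [e.right_inv hz] at h5
    exact h5

/-- if the maps `ψ s` with `s < 0` near `0` do not decrease distances, then the Lie derivative of the
metric is nonpositive -/
theorem sfun_nonpos (hK : IsKahler E M) (hZ : IsHolField Z) (hψ : IsHolCFlow E ψ)
    (hI : ∀ x ζ, IntAt Z (fun w => ψ w x) ζ)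
    (hd : ∃ᶠ s : ℝ in 𝓝[<] 0, ∀ x y, dist x y ≤ dist (ψ s x) (ψ s y)) :
    ∀ e ∈ maximalAtlas 𝓘(ℂ, E) 1 M, ∀ z ∈ e.target, ∀ a,
      Sfun (chartG e) (fun y : E => comps Z e (e.symm y)) z a ≤ 0 := by
  intro e he z hz a
  obtain ⟨Q, hQ, -, hQs⟩ := exists_energy hK hZ hψ hI he hz a
  have h1 := slope_left hQ
  have h2 : 2 * Sfun (chartG e) (fun y : E => comps Z e (e.symm y)) z a ≤ 0 := by
    refine le_of_tendsto_of_frequently h1 ?_
    have hQs' := hQs.filter_mono (nhdsWithin_le_nhds (s := Iio (0:ℝ)))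
    refine (hd.and_eventually (hQs'.and self_mem_nhdsWithin)).mono ?_
    rintro s ⟨h3, h4, h5⟩
    have h6 := h4 fun y => h3 _ _
    have h7 : s < 0 := h5
    rw [smul_eq_mul]
    exact mul_nonpos_of_nonpos_of_nonneg (inv_nonpos.2 h7.le) (sub_nonneg.2 h6)
  linarith

/-- if the maps `ψ s` with `s > 0` near `0` do not decrease distances, then the Lie derivative of the
metric is nonnegative -/
theorem sfun_nonneg (hK : IsKahler E M) (hZ : IsHolField Z) (hψ : IsHolCFlow E ψ)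
    (hI : ∀ x ζ, IntAt Z (fun w => ψ w x) ζ)
    (hd : ∃ᶠ s : ℝ in 𝓝[>] 0, ∀ x y, dist x y ≤ dist (ψ s x) (ψ s y)) :
    ∀ e ∈ maximalAtlas 𝓘(ℂ, E) 1 M, ∀ z ∈ e.target, ∀ a,
      0 ≤ Sfun (chartG e) (fun y : E => comps Z e (e.symm y)) z a := by
  intro e he z hz a
  obtain ⟨Q, hQ, -, hQs⟩ := exists_energy hK hZ hψ hI he hz a
  have h1 := slope_right hQ
  have h2 : 0 ≤ 2 * Sfun (chartG e) (fun y : E => comps Z e (e.symm y)) z a := by
    refine ge_of_tendsto_of_frequently h1 ?_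
    have hQs' := hQs.filter_mono (nhdsWithin_le_nhds (s := Ioi (0:ℝ)))
    refine (hd.and_eventually (hQs'.and self_mem_nhdsWithin)).mono ?_
    rintro s ⟨h3, h4, h5⟩
    have h6 := h4 fun y => h3 _ _
    have h7 : 0 < s := h5
    rw [smul_eq_mul]
    exact mul_nonneg (inv_nonneg.2 h7.le) (sub_nonneg.2 h6)
  linarith

/-- if the flow does not decrease distances backwards in time, the Lie derivative of the metric is
nonpositive -/
theorem sfun_nonpos_of_flow (hK : IsKahler E M) (hZ : IsHolField Z) (hψ : IsHolCFlow E ψ)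
    (hI : ∀ x ζ, IntAt Z (fun w => ψ w x) ζ)
    (hd : ∀ t : ℝ, 0 < t → ∀ x y, dist x y ≤ dist (ψ (-t) x) (ψ (-t) y)) :
    ∀ e ∈ maximalAtlas 𝓘(ℂ, E) 1 M, ∀ z ∈ e.target, ∀ a,
      Sfun (chartG e) (fun y : E => comps Z e (e.symm y)) z a ≤ 0 := by
  refine sfun_nonpos hK hZ hψ hI (Eventually.frequently ?_)
  filter_upwards [self_mem_nhdsWithin] with s hs x y
  have h1 := hd (-s) (neg_pos.2 hs) x y
  rwa [ofReal_neg, neg_neg] at h1

/-- if the flow does not increase distances backwards in time, the Lie derivative of the metric is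
nonnegative -/
theorem sfun_nonneg_of_flow (hK : IsKahler E M) (hZ : IsHolField Z) (hψ : IsHolCFlow E ψ)
    (hI : ∀ x ζ, IntAt Z (fun w => ψ w x) ζ)
    (hd : ∀ t : ℝ, 0 < t → ∀ x y, dist (ψ (-t) x) (ψ (-t) y) ≤ dist x y) :
    ∀ e ∈ maximalAtlas 𝓘(ℂ, E) 1 M, ∀ z ∈ e.target, ∀ a,
      0 ≤ Sfun (chartG e) (fun y : E => comps Z e (e.symm y)) z a := by
  refine sfun_nonneg hK hZ hψ hI (Eventually.frequently ?_)
  filter_upwards [self_mem_nhdsWithin] with s hs x y
  have h1 := hd s hs (ψ s x) (ψ s y)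
  rwa [← hψ.add, ← hψ.add, neg_add_cancel, hψ.zero, hψ.zero] at h1

/-- a holomorphic vector field whose flow preserves distances is a Killing field -/
theorem sfun_eq_zero_of_isometric (hK : IsKahler E M) (hZ : IsHolField Z) (hψ : IsHolCFlow E ψ)
    (hI : ∀ x ζ, IntAt Z (fun w => ψ w x) ζ)
    (hd : ∀ t : ℝ, 0 < t → ∀ x y, dist (ψ (-t) x) (ψ (-t) y) = dist x y) :
    ∀ e ∈ maximalAtlas 𝓘(ℂ, E) 1 M, ∀ z ∈ e.target, ∀ a,
      Sfun (chartG e) (fun y : E => comps Z e (e.symm y)) z a = 0 := fun e he z hz a =>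
  le_antisymm (sfun_nonpos_of_flow hK hZ hψ hI (fun t ht x y => (hd t ht x y).ge) e he z hz a)
    (sfun_nonneg_of_flow hK hZ hψ hI (fun t ht x y => (hd t ht x y).le) e he z hz a)

/-- if the Lie derivative of the metric is positive somewhere, the flow backwards in time is, at some
time, not distance preserving -/
theorem exists_not_isometric (hK : IsKahler E M) (hZ : IsHolField Z) (hψ : IsHolCFlow E ψ)
    (hI : ∀ x ζ, IntAt Z (fun w => ψ w x) ζ)
    (h : ∃ e ∈ maximalAtlas 𝓘(ℂ, E) 1 M, ∃ z ∈ e.target, ∃ a,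
      0 < Sfun (chartG e) (fun y : E => comps Z e (e.symm y)) z a) :
    ∃ t : ℝ, 0 < t ∧ ∃ x y, dist (ψ (-t) x) (ψ (-t) y) < dist x y := by
  by_contra hcon
  push Not at hcon
  obtain ⟨e, he, z, hz, a, ha⟩ := h
  exact absurd ha (not_lt.2 (sfun_nonpos_of_flow hK hZ hψ hI
    (fun t ht x y => hcon t ht x y) e he z hz a))

end kill

end Vale.Agent.P253.H805
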