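import Vale.Agent.P253.H805.IsoM
import Vale.Agent.P253.H836.LimBdd
import Vale.Agent.P253.R2.H445.All
import Vale.Agent.P253.H22.NFin
import Vale.Agent.P253.H445.TorusZ
import Vale.Agent.P253.H51.CartanB

/-!
P253: bounded groups of biholomorphisms with a common fixed point without invariant monomials.
-/

open scoped Manifold ContDiff Topology Bundle
open Set Metric Complex Filter Bundle IsManifold Manifold Module Vale.Agent.P253.Mfd
  Vale.Agent.P253.H595 Vale.Agent.P253.R2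

set_option maxSynthPendingDepth 3
set_option linter.unusedSectionVars false

noncomputable section

namespace Vale.Agent.P253.H805

section cplx

variable {E : Type*} [NormedAddCommGroup E] [NormedSpace ℂ E]
  {M : Type*} [MetricSpace M] [ChartedSpace E M]

variable (E) in
/-- a group of holomorphic maps which fix `p`, bounded on compact sets and equicontinuous -/
structure BddGroup (p : M) (G : Set (M → M)) : Prop where
  holo : ∀ g ∈ G, MDifferentiable 𝓘(ℂ, E) 𝓘(ℂ, E) g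
  fix : ∀ g ∈ G, g p = p
  mul : ∀ g ∈ G, ∀ h ∈ G, g ∘ h ∈ G
  one : id ∈ G
  inv : ∀ g ∈ G, ∃ h ∈ G, ∀ x, h (g x) = x
  bdd : ∀ C : Set M, IsCompact C → ∃ C' : Set M, IsCompact C' ∧ ∀ g ∈ G, ∀ x ∈ C, g x ∈ C'
  equi : ∀ x₁ : M, ∀ ε > 0, ∃ U ∈ 𝓝 x₁, ∀ g ∈ G, ∀ x ∈ U, ∀ y ∈ U, dist (g x) (g y) < ε

variable {p : M} {G : Set (M → M)}

/-- elements of the closure are limits -/
theorem exists_lim_of_closure (h1 : id ∈ G) {g : M → M} (hg : g ∈ closure G) :
    ∃ (u : Ultrafilter (M → M)) (γ : (M → M) → (M → M)), (∀ f, γ f ∈ G) ∧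
      ∀ x, Tendsto (fun f => γ f x) u (𝓝 (g x)) := by
  classical
  obtain ⟨u, hu, huc⟩ := mem_closure_iff_ultrafilter.1 hg
  refine ⟨u, fun f => if f ∈ G then f else id, fun f => ?_, fun x => ?_⟩
  · by_cases hf : f ∈ G
    · simp only [if_pos hf]; exact hf
    · simp only [if_neg hf]; exact h1
  · have h2 : Tendsto (fun f : M → M => f x) u (𝓝 (g x)) :=
      ((continuous_apply x).tendsto g).mono_left huc
    refine h2.congr' ?_
    filter_upwards [hu] with f hf
    simp only [if_pos hf]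

variable [IsManifold 𝓘(ℂ, E) 1 M] [FiniteDimensional ℂ E]

theorem BddGroup.exists_lim (hG : BddGroup E p G) {ι : Type*} (u : Ultrafilter ι)
    {g : ι → M → M} (hg : ∀ i, g i ∈ G) :
    ∃ F ∈ closure G, MDifferentiable 𝓘(ℂ, E) 𝓘(ℂ, E) F ∧
      (∀ x, Tendsto (fun i => g i x) u (𝓝 (F x))) ∧
      ∀ v : E, Tendsto (fun i => dC (E := E) (g i) p v) u (𝓝 (dC (E := E) F p v)) := by
  obtain ⟨F, h1, -, -, h2, -, -, h3⟩ := H836.exists_limit_eq (E := E) (p := p) u
    (fun i => hG.holo _ (hg i)) (fun i => hG.fix _ (hg i))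
    (fun C hC => by
      obtain ⟨C', hC', h⟩ := hG.bdd C hC
      exact ⟨C', hC', fun i => h _ (hg i)⟩)
    (fun x₁ ε hε => by
      obtain ⟨U, hU, h⟩ := hG.equi x₁ ε hε
      exact ⟨U, hU, fun i => h _ (hg i)⟩)
  refine ⟨F, ?_, h1, h2, h3⟩
  exact mem_closure_of_tendsto (tendsto_pi_nhds.2 h2) (Eventually.of_forall hg)

theorem BddGroup.closure (hG : BddGroup E p G) : BddGroup E p (closure G) := by
  have hholo : ∀ g ∈ _root_.closure G, MDifferentiable 𝓘(ℂ, E) 𝓘(ℂ, E) g := by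
    intro g hg
    obtain ⟨u, γ, h1, h2⟩ := exists_lim_of_closure hG.one hg
    obtain ⟨F, -, h3, h4, -⟩ := hG.exists_lim u h1
    have h5 : g = F := funext fun x => tendsto_nhds_unique (h2 x) (h4 x)
    rw [h5]
    exact h3
  refine ⟨hholo, ?_, ?_, subset_closure hG.one, ?_, ?_, ?_⟩
  · intro g hg
    obtain ⟨u, γ, h1, h2⟩ := exists_lim_of_closure hG.one hg
    have h3 := h2 p
    simp only [hG.fix _ (h1 _)] at h3
    exact tendsto_nhds_unique h3 tendsto_const_nhds |>.symm ▸ rfl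
  · have h1 : ∀ g ∈ _root_.closure G, ∀ h ∈ G, g ∘ h ∈ _root_.closure G := by
      intro g hg h hh
      have hc : Continuous (fun f : M → M => f ∘ h) :=
        continuous_pi fun x => continuous_apply (h x)
      exact map_mem_closure (f := fun f : M → M => f ∘ h) hc hg fun f hf => hG.mul f hf h hh
    intro g hg h hh
    have hc : Continuous (fun f : M → M => g ∘ f) :=
      continuous_pi fun x => (hholo g hg).continuous.comp (continuous_apply x)
    have h2 := map_mem_closure (f := fun f : M → M => g ∘ f) hc hh fun f hf => h1 g hg f hf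
    rwa [closure_closure] at h2
  · intro g hg
    obtain ⟨u, γ, h1, h2⟩ := exists_lim_of_closure hG.one hg
    choose η hη hηγ using fun f => hG.inv (γ f) (h1 f)
    obtain ⟨H, hH, -, h4, -⟩ := hG.exists_lim u hη
    refine ⟨H, hH, fun x => ?_⟩
    refine tendsto_nhds_unique (h4 (g x)) ?_
    rw [Metric.tendsto_nhds]
    intro ε hε
    obtain ⟨U, hU, h5⟩ := hG.equi (g x) ε hε
    filter_upwards [(h2 x).eventually_mem hU] with f hf
    have h6 := h5 (η f) (hη f) (g x) (mem_of_mem_nhds hU) (γ f x) hf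
    rwa [hηγ] at h6
  · intro C hC
    obtain ⟨C', hC', h⟩ := hG.bdd C hC
    refine ⟨C', hC', fun g hg x hx => ?_⟩
    obtain ⟨u, γ, h1, h2⟩ := exists_lim_of_closure hG.one hg
    exact hC'.isClosed.mem_of_tendsto (h2 x) (Eventually.of_forall fun f => h _ (h1 f) x hx)
  · intro x₁ ε hε
    obtain ⟨U, hU, h⟩ := hG.equi x₁ (ε / 2) (half_pos hε)
    refine ⟨U, hU, fun g hg x hx y hy => ?_⟩
    obtain ⟨u, γ, h1, h2⟩ := exists_lim_of_closure hG.one hg
    have h3 : dist (g x) (g y) ≤ ε / 2 :=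
      le_of_tendsto ((h2 x).dist (h2 y)) (Eventually.of_forall fun f =>
        (h _ (h1 f) x hx y hy).le)
    linarith

variable {n : ℕ} {b : Module.Basis (Fin n) ℂ E}

/-- `g` belongs to `G` and its differential at `p` is `diag c` in the basis `b` -/
def IsDiagIn (G : Set (M → M)) (p : M) (b : Module.Basis (Fin n) ℂ E) (g : M → M)
    (c : Fin n → ℂ) : Prop :=
  g ∈ G ∧ ∀ j, dC (E := E) g p (b j) = c j • b j

theorem IsDiagIn.comp (hG : BddGroup E p G) {g h : M → M} {c d : Fin n → ℂ}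
    (hg : IsDiagIn G p b g c) (hh : IsDiagIn G p b h d) : IsDiagIn G p b (g ∘ h) (c * d) := by
  refine ⟨hG.mul _ hg.1 _ hh.1, fun j => ?_⟩
  rw [dC_comp (hG.holo _ hh.1) (hG.holo _ hg.1), hG.fix _ hh.1, hh.2, map_smul, hg.2, smul_smul,
    Pi.mul_apply, mul_comm]

theorem isDiagIn_id (hG : BddGroup E p G) : IsDiagIn G p b (id : M → M) 1 :=
  ⟨hG.one, fun j => by rw [dC_id, Pi.one_apply, one_smul]⟩

theorem IsDiagIn.iterate (hG : BddGroup E p G) {g : M → M} {c : Fin n → ℂ}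
    (hg : IsDiagIn G p b g c) (k : ℕ) : IsDiagIn G p b (g^[k]) (c ^ k) := by
  induction k with
  | zero => exact isDiagIn_id hG
  | succ k ih =>
    rw [Function.iterate_succ, pow_succ]
    exact ih.comp hG hg

theorem IsDiagIn.deriv_id {g : M → M} (hg : IsDiagIn G p b g 1) (v : E) :
    dC (E := E) g p v = v := by
  have h1 : (dC (E := E) g p : E →ₗ[ℂ] E) = LinearMap.id := by
    refine b.ext fun j => ?_
    have := hg.2 j
    rw [Pi.one_apply, one_smul] at this
    exact this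
  exact congrArg (fun T : E →ₗ[ℂ] E => T v) h1

theorem IsDiagIn.exists_inv (hG : BddGroup E p G) {f : M → M} {c : Fin n → ℂ}
    (hf : IsDiagIn G p b f c) :
    (∀ j, c j ≠ 0) ∧ ∃ g : M → M, IsDiagIn G p b g c⁻¹ ∧ ∀ x, g (f x) = x := by
  obtain ⟨g, hg, hgf⟩ := hG.inv f hf.1
  have h6 : g ∘ f = id := funext hgf
  have h7 : ∀ j, b j = c j • dC (E := E) g p (b j) := by
    intro j
    have h8 := dC_comp (hG.holo _ hf.1) (hG.holo _ hg) p (b j)
    rwa [h6, dC_id, hG.fix _ hf.1, hf.2, map_smul] at h8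
  have hc : ∀ j, c j ≠ 0 := by
    intro j h0
    have h8 := h7 j
    rw [h0, zero_smul] at h8
    exact b.ne_zero j h8
  refine ⟨hc, g, ⟨hg, fun j => ?_⟩, hgf⟩
  rw [Pi.inv_apply]
  calc dC (E := E) g p (b j) = (c j)⁻¹ • (c j • dC (E := E) g p (b j)) := by
        rw [smul_smul, inv_mul_cancel₀ (hc j), one_smul]
    _ = (c j)⁻¹ • b j := by rw [← h7]

/-- the eigenvalues have modulus one -/
theorem IsDiagIn.norm_eq_one (hG : BddGroup E p G) (hcl : IsClosed G) {f : M → M}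
    {c : Fin n → ℂ} (hf : IsDiagIn G p b f c) (j : Fin n) : ‖c j‖ = 1 := by
  have key : ∀ (f : M → M) (c : Fin n → ℂ), IsDiagIn G p b f c → ∀ j, 1 ≤ ‖c j‖ := by
    intro f c hf j
    by_contra hlt
    push Not at hlt
    obtain ⟨F, hF, -, h4, h5⟩ := hG.exists_lim (Ultrafilter.of (atTop : Filter ℕ))
      (g := fun k => f^[k]) (fun k => (hf.iterate hG k).1)
    rw [hcl.closure_eq] at hF
    have h6 : dC (E := E) F p (b j) = 0 := by
      refine tendsto_nhds_unique (h5 (b j)) ?_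
      have h7 : Tendsto (fun k : ℕ => (c j) ^ k • b j) (Ultrafilter.of (atTop : Filter ℕ))
          (𝓝 ((0:ℂ) • b j)) :=
        ((tendsto_pow_atTop_nhds_zero_of_norm_lt_one hlt).mono_left
          (Ultrafilter.of_le _)).smul_const (b j)
      rw [zero_smul] at h7
      refine h7.congr fun k => ?_
      exact ((hf.iterate hG k).2 j).symm
    obtain ⟨g, hg, hgF⟩ := hG.inv F hF
    have h7 : g ∘ F = id := funext hgF
    have h8 := dC_comp (hG.holo _ hF) (hG.holo _ hg) p (b j)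
    rw [h7, dC_id, h6, map_zero] at h8
    exact b.ne_zero j h8
  obtain ⟨hc, g, hg, -⟩ := hf.exists_inv hG
  have h1 := key f c hf j
  have h2 := key g _ hg j
  rw [Pi.inv_apply, norm_inv] at h2
  have h3 : 0 < ‖c j‖ := by linarith
  have h4 : ‖c j‖ ≤ 1 := by
    rw [one_le_inv₀ h3] at h2
    exact h2
  linarith

theorem IsDiagIn.unique (hG : BddGroup E p G)
    (hcar : ∀ g ∈ G, (∀ v : E, dC (E := E) g p v = v) → ∀ x, g x = x) {f g : M → M}
    {c : Fin n → ℂ} (hf : IsDiagIn G p b f c) (hg : IsDiagIn G p b g c) : f = g := by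
  obtain ⟨hc, h, hh, hhg⟩ := hg.exists_inv hG
  have h1 := hh.comp hG hf
  have h2 : c⁻¹ * c = 1 := by
    funext j
    simp [hc j]
  rw [h2] at h1
  obtain ⟨h', -, hh'⟩ := hG.inv h hh.1
  funext x
  have h3 : h (f x) = x := hcar _ h1.1 h1.deriv_id x
  rw [← hh' (f x), h3, ← hh' (g x), hhg]

theorem IsDiagIn.of_mem_closure (hG : BddGroup E p G) (hcl : IsClosed G) {c : Fin n → ℂ}
    (hc : c ∈ _root_.closure {c | ∃ g : M → M, IsDiagIn G p b g c}) :
    ∃ g : M → M, IsDiagIn G p b g c := by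
  classical
  obtain ⟨u, hu, huc⟩ := mem_closure_iff_ultrafilter.1 hc
  set g : (Fin n → ℂ) → M → M := fun d =>
    if h : ∃ g : M → M, IsDiagIn G p b g d then h.choose else id with hg
  have h1 : ∀ d, (∃ g : M → M, IsDiagIn G p b g d) → IsDiagIn G p b (g d) d := by
    intro d h
    simp only [hg, dif_pos h]
    exact h.choose_spec
  have h2 : ∀ d, g d ∈ G := by
    intro d
    by_cases h : ∃ g : M → M, IsDiagIn G p b g d
    · exact (h1 d h).1
    · simp only [hg, dif_neg h]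
      exact hG.one
  obtain ⟨F, hF, -, -, h5⟩ := hG.exists_lim u h2
  rw [hcl.closure_eq] at hF
  refine ⟨F, hF, fun j => ?_⟩
  have h6 : Tendsto (fun d : Fin n → ℂ => d j • b j) u (𝓝 (c j • b j)) :=
    (((continuous_apply j).tendsto c).mono_left huc).smul_const (b j)
  refine tendsto_nhds_unique ((h5 (b j)).congr' ?_) h6
  filter_upwards [hu] with d hd using (h1 d hd).2 j

/-- the circle action -/
theorem exists_circle (hG : BddGroup E p G) (hcl : IsClosed G)
    (hcar : ∀ g ∈ G, (∀ v : E, dC (E := E) g p v = v) → ∀ x, g x = x)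
    (hinv : ∀ a : Fin n → ℕ, a ≠ 0 →
      ∃ (g : M → M) (c : Fin n → ℂ), IsDiagIn G p b g c ∧ ∏ j, c j ^ a j ≠ 1) :
    ∃ (k : Fin n → ℕ) (ρ : ℝ → M → M), (∀ j, 0 < k j) ∧
      (∀ t : ℝ, IsDiagIn G p b (ρ t) (fun j => Complex.exp (t * k j * Complex.I))) ∧
      (∀ x, ρ 0 x = x) ∧ (∀ s t x, ρ (s + t) x = ρ s (ρ t x)) ∧
      (∀ x, ρ (2 * Real.pi) x = x) ∧ Continuous (fun q : ℝ × M => ρ q.1 q.2) := by
  obtain ⟨k, hk, hcls⟩ := H445.exists_int_flow (S := {c | ∃ g : M → M, IsDiagIn G p b g c})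
    (by rintro c ⟨g, hg⟩ j; exact hg.norm_eq_one hG hcl j) ⟨id, isDiagIn_id hG⟩
    (by rintro c ⟨g, hg⟩ d ⟨h, hh⟩; exact ⟨g ∘ h, hg.comp hG hh⟩)
    (by
      intro a ha
      obtain ⟨g, c, hg, hc⟩ := hinv a ha
      exact ⟨c, ⟨g, hg⟩, hc⟩)
  choose ρ hρ using fun t : ℝ => IsDiagIn.of_mem_closure (E := E) hG hcl (hcls t)
  have h0 : ρ 0 = id := by
    refine (hρ 0).unique hG hcar ?_
    have h1 : (fun j => Complex.exp (((0:ℝ):ℂ) * k j * Complex.I)) = (1 : Fin n → ℂ) := by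
      funext j
      simp
    rw [h1]
    exact isDiagIn_id hG
  have hper : ρ (2 * Real.pi) = id := by
    refine (hρ (2 * Real.pi)).unique hG hcar ?_
    have h1 : (fun j => Complex.exp (((2 * Real.pi : ℝ):ℂ) * k j * Complex.I)) =
        (1 : Fin n → ℂ) := by
      funext j
      rw [Pi.one_apply]
      have h2 : ((2 * Real.pi : ℝ):ℂ) * k j * Complex.I = (k j : ℂ) * (2 * Real.pi * Complex.I) := by
        push_cast
        ring
      rw [h2]
      exact Complex.exp_nat_mul_two_pi_mul_I (k j)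
    rw [h1]
    exact isDiagIn_id hG
  have hadd : ∀ s t, ρ (s + t) = ρ s ∘ ρ t := by
    intro s t
    refine (hρ (s + t)).unique hG hcar ?_
    have h1 : (fun j => Complex.exp (((s + t : ℝ):ℂ) * k j * Complex.I)) =
        (fun j => Complex.exp ((s:ℂ) * k j * Complex.I)) *
          (fun j => Complex.exp ((t:ℂ) * k j * Complex.I)) := by
      funext j
      rw [Pi.mul_apply, ← Complex.exp_add]
      congr 1
      push_cast
      ring
    rw [h1]
    exact (hρ s).comp hG (hρ t)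
  have hlim : ∀ x, Tendsto (fun t : ℝ => ρ t x) (𝓝 0) (𝓝 x) := by
    intro x
    rw [tendsto_iff_ultrafilter]
    intro v hv
    obtain ⟨F, hF, -, h3, h5⟩ := hG.exists_lim v (g := ρ) fun t => (hρ t).1
    rw [hcl.closure_eq] at hF
    have h4 : F = id := by
      refine IsDiagIn.unique (b := b) (c := 1) hG hcar ⟨hF, fun j => ?_⟩ (isDiagIn_id hG)
      rw [Pi.one_apply, one_smul]
      refine tendsto_nhds_unique (h5 (b j)) ?_
      have h6 : Tendsto (fun t : ℝ => Complex.exp (t * k j * Complex.I) • b j) (𝓝 0)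
          (𝓝 (Complex.exp (((0:ℝ):ℂ) * k j * Complex.I) • b j)) := by
        apply Continuous.tendsto (f := fun t : ℝ => Complex.exp (t * k j * Complex.I) • b j)
        fun_prop
      have h7 : Complex.exp (((0:ℝ):ℂ) * k j * Complex.I) • b j = b j := by
        simp
      rw [h7] at h6
      refine (h6.mono_left hv).congr fun t => ?_
      exact ((hρ t).2 j).symm
    have h5 := h3 x
    rw [h4] at h5
    exact h5
  refine ⟨k, ρ, hk, hρ, fun x => by rw [h0]; rfl, fun s t x => by rw [hadd]; rfl,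
    fun x => by rw [hper]; rfl, ?_⟩
  rw [continuous_iff_continuousAt]
  rintro ⟨t₀, y₀⟩
  have h1 : Tendsto (fun q : ℝ × M => ρ q.1 y₀) (𝓝 (t₀, y₀)) (𝓝 (ρ t₀ y₀)) := by
    have h2 : Tendsto (fun q : ℝ × M => q.1 - t₀) (𝓝 (t₀, y₀)) (𝓝 (t₀ - t₀)) :=
      (continuous_fst.sub continuous_const).tendsto _
    rw [sub_self] at h2
    have h3 := (hlim y₀).comp h2
    have h4 := ((hG.holo _ (hρ t₀).1).continuous.tendsto y₀).comp h3
    refine h4.congr fun q => ?_
    have h5 := congrFun (hadd t₀ (q.1 - t₀)) y₀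
    rw [add_sub_cancel] at h5
    exact h5.symm
  rw [ContinuousAt, Metric.tendsto_nhds]
  intro ε hε
  obtain ⟨U, hU, h2⟩ := hG.equi y₀ (ε / 2) (half_pos hε)
  filter_upwards [Metric.tendsto_nhds.1 h1 (ε / 2) (half_pos hε),
    (continuous_snd.tendsto (t₀, y₀)).eventually_mem hU] with q h3 h4
  have h5 := h2 (ρ q.1) (hρ q.1).1 q.2 h4 y₀ (mem_of_mem_nhds hU)
  have h6 := dist_triangle (ρ q.1 q.2) (ρ q.1 y₀) (ρ t₀ y₀)
  show dist (ρ q.1 q.2) (ρ t₀ y₀) < ε
  linarith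

end cplx

variable {E : Type*} [NormedAddCommGroup E] [NormedSpace ℂ E] [FiniteDimensional ℂ E]
  {M : Type*} [MetricSpace M] [ChartedSpace E M]
  [IsManifold 𝓘(ℂ, E) 1 M] [IsManifold 𝓘(ℝ, E) ∞ M]
  [RiemannianBundle (fun x : M => TangentSpace 𝓘(ℝ, E) x)]
  [IsContMDiffRiemannianBundle 𝓘(ℝ, E) ∞ E (fun x : M => TangentSpace 𝓘(ℝ, E) x)]
  [IsRiemannianManifold 𝓘(ℝ, E) M]

/-- **bounded groups of biholomorphisms with a common fixed point without invariant monomials** -/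
theorem main_bdd (hK : IsKahler E M) [CompleteSpace M] [NoncompactSpace M] [ConnectedSpace M]
    (hnn : ∀ x : M, NonnegBisectionalAt E x) (hpos : ∀ x : M, PosBisectionalAt E x) {p : M}
    {G : Set (M → M)} (hG : ∀ g ∈ G, MDifferentiable 𝓘(ℂ, E) 𝓘(ℂ, E) g ∧ g p = p)
    (hmul : ∀ g ∈ G, ∀ h ∈ G, g ∘ h ∈ G) (hinvG : ∀ g ∈ G, ∃ h ∈ G, ∀ x, h (g x) = x)
    (hB : ∀ C : Set M, IsCompact C → ∃ C' : Set M, IsCompact C' ∧ ∀ g ∈ G, ∀ x ∈ C, g x ∈ C')
    {b : Module.Basis (Fin (Module.finrank ℂ E)) ℂ E}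
    {lam : (M → M) → Fin (Module.finrank ℂ E) → ℂ}
    (hlam : ∀ g ∈ G, ∀ j, (mfderiv 𝓘(ℂ, E) 𝓘(ℂ, E) g p : E → E) (b j) = lam g j • b j)
    (hinv : ∀ a : Fin (Module.finrank ℂ E) → ℕ, a ≠ 0 → ∃ g ∈ G, ∏ j, lam g j ^ a j ≠ 1) :
    ∃ F : M ≃ₘ^1⟮𝓘(ℂ, E), 𝓘(ℂ, E)⟯ E, F p = 0 ∧
      ∀ v : E, (mfderiv 𝓘(ℂ, E) 𝓘(ℂ, E) F p : E → E) v = v := by
  have hprop : ProperSpace M := properSpace_riemannian E M
  have hnt : Nontrivial E := H22.nontrivial_of_noncompact E M
  have hfr : 0 < Module.finrank ℂ E := Module.finrank_pos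
  obtain ⟨g₀, hg₀, -⟩ := hinv 1 (fun h => by
    have := congrFun h ⟨0, hfr⟩
    exact one_ne_zero this)
  have hG0 : BddGroup E p G := by
    refine ⟨fun g hg => (hG g hg).1, fun g hg => (hG g hg).2, hmul, ?_, hinvG, hB,
      H836.equi_of_bdd hK hnn hpos (fun g hg => (hG g hg).1) hB⟩
    obtain ⟨h, hh, hh'⟩ := hinvG g₀ hg₀
    have := hmul h hh g₀ hg₀
    rwa [show h ∘ g₀ = id from funext hh'] at this
  have hG1 := hG0.closure
  have hcar : ∀ g ∈ closure G, (∀ v : E, dC (E := E) g p v = v) → ∀ x, g x = x := by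
    intro g hg hd x
    refine H51.eq_id_of_deriv_bdd (hG1.holo g hg) (hG1.fix g hg) (fun ε hε => ?_) hd x
    obtain ⟨U, hU, h⟩ := hG1.equi p ε hε
    refine ⟨U, hU, fun k y hy => ?_⟩
    have hk : g^[k] ∈ closure G := by
      induction k with
      | zero => exact hG1.one
      | succ k ih =>
        rw [Function.iterate_succ]
        exact hG1.mul _ ih _ hg
    have h1 := h _ hk y hy p (mem_of_mem_nhds hU)
    rwa [hG1.fix _ hk] at h1
  obtain ⟨k, ρ, hk, hρ, h0, hadd, hper, hcont⟩ := exists_circle (b := b) hG1 isClosed_closure hcar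
    (fun a ha => by
      obtain ⟨g, hg, h⟩ := hinv a ha
      exact ⟨g, lam g, ⟨subset_closure hg, hlam g hg⟩, h⟩)
  have hholo : ∀ t, MDifferentiable 𝓘(ℂ, E) 𝓘(ℂ, E) (ρ t) := fun t => hG1.holo _ (hρ t).1
  have hsemi : H567.IsHolSemigroup E ρ :=
    ⟨h0, fun s t x _ _ => hadd s t x, hcont.continuousOn, fun t _ => hholo t⟩
  obtain ⟨ψ, hψ, hψρ⟩ := H567.hasSExt_of_nonneg hK hnn ρ hsemi
  have hall : ∀ (t : ℝ) x, ψ t x = ρ t x := by
    intro t x
    rcases le_total 0 t with ht | ht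
    · exact hψρ t ht x
    · have h1 : ψ (((-t : ℝ)) : ℂ) (ρ t x) = x := by
        rw [hψρ (-t) (neg_nonneg.2 ht), ← hadd, neg_add_cancel, h0]
      calc ψ t x = ψ t (ψ ((-t : ℝ) : ℂ) (ρ t x)) := by rw [h1]
        _ = ρ t x := by
          rw [← hψ.add, ← ofReal_add, add_neg_cancel, ofReal_zero, hψ.zero]
  have hflow : IsHolFlow E ρ := by
    refine ⟨h0, hadd, ?_, hholo⟩
    have h1 := smooth_of_cflow hψ
    simp only [hall] at h1
    exact h1
  have hcirc : IsHolCircleAction E ρ := ⟨hflow, hper⟩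
  have hfin := (R2.H445.final hK hnn (R2.H445.hasExt_of_nonneg hK hnn)).1 ρ hcirc p
    ⟨fun t => hG1.fix _ (hρ t).1, b, fun j => (k j : ℝ), fun j => Nat.cast_pos.2 (hk j),
      fun t j => by
        have h1 := (hρ t).2 j
        push_cast
        exact h1⟩ (hpos p)
  obtain ⟨F, h1, h2, -⟩ := hfin
  exact ⟨F, h1, h2⟩

end Vale.Agent.P253.H805
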