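import Vale.Agent.P253.H805.Sib

/-!
P253: Sibony's estimate and the lemma on points of a holomorphic disc which are almost nearest to
a far point.
-/

open scoped Manifold ContDiff Topology Bundle
open Set Metric Complex Filter Bundle IsManifold Manifold Module Vale.Agent.P253.Mfd

set_option maxSynthPendingDepth 3
set_option linter.unusedSectionVars false

noncomputable section

namespace Vale.Agent.P253.H805

variable {E : Type*} [NormedAddCommGroup E] [NormedSpace ℂ E] [FiniteDimensional ℂ E]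
  {M : Type*} [MetricSpace M] [ChartedSpace E M]
  {F : Type*} [NormedAddCommGroup F] [InnerProductSpace ℂ F] [FiniteDimensional ℂ F]
  [IsManifold 𝓘(ℂ, E) 1 M] [IsManifold 𝓘(ℝ, E) ∞ M]
  [RiemannianBundle (fun x : M => TangentSpace 𝓘(ℝ, E) x)]
  [IsContMDiffRiemannianBundle 𝓘(ℝ, E) ∞ E (fun x : M => TangentSpace 𝓘(ℝ, E) x)]
  [IsRiemannianManifold 𝓘(ℝ, E) M]

/-- **Sibony's estimate** for a holomorphic disc -/
theorem sib (hK : IsKahler E M) {e : OpenPartialHomeomorph M E}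
    (he : e ∈ maximalAtlas 𝓘(ℂ, E) 1 M) {ψ : E ≃L[ℂ] F} {ρ : ℝ} (hρ : 0 < ρ)
    {m c lam : ℝ} (hc : 0 < c) (hlam0 : 0 ≤ lam)
    (hlam : lam * c = 4 * m / ρ ^ 2) {q : M} {Q : Set M}
    (hlev : ∀ x ∈ Q, LeviBound (E := E) q x (-c)) {g : ℂ → M} (h0 : g 0 ∈ e.source)
    (htgt : cb ψ (e (g 0)) ρ ⊆ e.target)
    (hm : ∀ y ∈ cb ψ (e (g 0)) ρ, ∀ Y, ‖ψ Y‖ ^ 2 ≤ m * chartG e y Y Y)
    (hg : ∀ z ∈ closedBall (0:ℂ) 1, MDifferentiableAt 𝓘(ℂ, ℂ) 𝓘(ℂ, E) g z)
    (hgQ : ∀ z ∈ closedBall (0:ℂ) 1, g z ∈ Q) {S : ℝ}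
    (hS : ∀ z ∈ closedBall (0:ℂ) 1, S ≤ dist (g z) q) {z : ℂ} (hz : ‖z‖ ≤ 1) :
    th e ψ (e (g 0)) ρ (g z) ≤ ‖z‖ ^ 2 * Real.exp (lam * (dist (g z) q - S)) := by
  set T : ℂ → ℝ := fun w => th e ψ (e (g 0)) ρ (g w) with hT
  have hT0 : ∀ w, 0 ≤ T w := fun w => th_nonneg _
  have hT1 : ∀ w, T w ≤ 1 := fun w => th_le_one _
  change T z ≤ _
  rcases eq_or_ne z 0 with rfl | hz0
  · rw [hT]
    simp only
    rw [th_of_mem h0]
    simp
  have hmem : ∀ w : ℂ, ‖w‖ ≤ 1 → w ∈ closedBall (0:ℂ) 1 := fun w hw => by simpa using hw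
  have hzn : 0 < ‖z‖ := norm_pos_iff.2 hz0
  -- quadratic bound at the centre
  have hquad : ∃ C > 0, ∀ᶠ w in 𝓝 (0:ℂ), T w ≤ C * ‖w‖ ^ 2 := by
    have hd : DifferentiableAt ℂ (fun w => ψ (e (g w) - e (g 0))) 0 :=
      ψ.differentiableAt.comp (0:ℂ)
        ((differentiableAt_comp (hg 0 (hmem 0 (by simp))) he h0).sub_const _)
    have hO := hd.hasFDerivAt.isBigO_sub
    obtain ⟨C, hC, hCb⟩ := hO.exists_pos
    rw [Asymptotics.isBigOWith_iff] at hCb
    have hsrc : ∀ᶠ w in 𝓝 (0:ℂ), g w ∈ e.source :=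
      (hg 0 (hmem 0 (by simp))).continuousAt.eventually (e.open_source.mem_nhds h0)
    refine ⟨C ^ 2 / ρ ^ 2, by positivity, ?_⟩
    filter_upwards [hCb, hsrc] with w h1 h2
    rw [hT]
    simp only
    rw [th_of_mem h2]
    refine (min_le_left _ _).trans ?_
    simp only [sub_self, map_zero, sub_zero] at h1
    have h3 := pow_le_pow_left₀ (norm_nonneg _) h1 2
    calc ‖ψ (e (g w) - e (g 0))‖ ^ 2 / ρ ^ 2 ≤ (C * ‖w‖) ^ 2 / ρ ^ 2 := by gcongr
      _ = C ^ 2 / ρ ^ 2 * ‖w‖ ^ 2 := by ring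
  obtain ⟨C, hC, hCev⟩ := hquad
  obtain ⟨δ₀, hδ₀, hδ₀b⟩ := Metric.eventually_nhds_iff_ball.1 hCev
  have hS0 : S ≤ dist (g z) q := hS z (hmem z hz)
  -- the estimate with exponent `s < 2`
  have hmain : ∀ s : ℝ, 0 < s → s < 2 →
      T z * Real.exp (-T z - lam * dist (g z) q - s * Real.log ‖z‖) ≤
        Real.exp (-1 - lam * S) := by
    intro s hs0 hs2
    set P : ℂ → ℝ := fun w => T w * Real.exp (-T w - lam * dist (g w) q - s * Real.log ‖w‖)
      with hP
    -- choice of the inner radius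
    have htend : Tendsto (fun δ : ℝ => C * Real.exp ((2 - s) * Real.log δ)) (𝓝[>] 0) (𝓝 0) := by
      have h1 : Tendsto (fun δ : ℝ => (2 - s) * Real.log δ) (𝓝[>] 0) atBot :=
        Real.tendsto_log_nhdsGT_zero.const_mul_atBot (by linarith)
      have h2 := (Real.tendsto_exp_atBot.comp h1).const_mul C
      simpa using h2
    have hIoo : ∀ᶠ δ : ℝ in 𝓝[>] 0, δ ∈ Ioo 0 (min δ₀ ‖z‖) :=
      Ioo_mem_nhdsGT (lt_min hδ₀ hzn)
    obtain ⟨δ, h1, h2⟩ := ((htend.eventually (eventually_lt_nhds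
      (Real.exp_pos (-1)))).and hIoo).exists
    have hδ0 : 0 < δ := h2.1
    have hδδ : δ < δ₀ := h2.2.trans_le (min_le_left _ _)
    have hδz : δ < ‖z‖ := h2.2.trans_le (min_le_right _ _)
    set K : Set ℂ := {w : ℂ | δ ≤ ‖w‖ ∧ ‖w‖ ≤ 1} with hKd
    set U : Set ℂ := {w : ℂ | δ < ‖w‖ ∧ ‖w‖ < 1} with hUd
    have hKc : IsCompact K := by
      refine Metric.isCompact_of_isClosed_isBounded ?_ ?_
      · exact (isClosed_le continuous_const continuous_norm).inter
          (isClosed_le continuous_norm continuous_const)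
      · exact (isBounded_closedBall (x := (0:ℂ)) (r := 1)).subset fun w hw => hmem w hw.2
    have hUo : IsOpen U := (isOpen_lt continuous_const continuous_norm).inter
      (isOpen_lt continuous_norm continuous_const)
    have hgc : ContinuousOn g K := fun w hw => (hg w (hmem w hw.2)).continuousAt.continuousWithinAt
    have hTc : ContinuousOn T K := (continuous_th hρ htgt).comp_continuousOn hgc
    have hlogc : ContinuousOn (fun w : ℂ => Real.log ‖w‖) K :=
      ContinuousOn.log continuous_norm.continuousOn fun w hw => by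
        have h4 : 0 < ‖w‖ := hδ0.trans_le hw.1
        exact h4.ne'
    have hdc : ContinuousOn (fun w => dist (g w) q) K :=
      (show Continuous fun x : M => dist x q by fun_prop).comp_continuousOn hgc
    have hPc : ContinuousOn P K := by
      refine hTc.mul (Real.continuous_exp.comp_continuousOn ?_)
      exact ((hTc.neg.sub (continuousOn_const.mul hdc)).sub (continuousOn_const.mul hlogc))
    have hgU : MDifferentiableOn 𝓘(ℂ, ℂ) 𝓘(ℂ, E) g U := fun w hw =>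
      (hg w (hmem w hw.2.le)).mdifferentiableWithinAt
    refine max_exp (z := z) hKc hUo (fun w hw => ⟨hw.1.le, hw.2.le⟩) hPc ?_ ?_
      (Real.exp_pos _).le ⟨hδz.le, hz⟩
    · intro w hw hPw
      have hTw : 0 < T w := by
        by_contra h4
        have h5 : T w = 0 := le_antisymm (not_lt.1 h4) (hT0 w)
        rw [hP] at hPw
        simp only [h5, zero_mul, lt_irrefl] at hPw
      exact fp_main hK he hρ htgt hm hc hlam0 hlam hUo hgU hw
        (hlev _ (hgQ w (hmem w hw.2.le))) (norm_pos_iff.1 (hδ0.trans hw.1)) hTw hs0.le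
    · rintro w ⟨hwK, hwU⟩
      have hw1 : w ∈ closedBall (0:ℂ) 1 := hmem w hwK.2
      have hSw := mul_le_mul_of_nonneg_left (hS w hw1) hlam0
      rcases hwK.2.eq_or_lt with h4 | h4
      · -- outer boundary
        rw [hP]
        simp only [h4, Real.log_one, mul_zero, sub_zero]
        have h5 : T w ≤ Real.exp (T w - 1) := by
          have := Real.add_one_le_exp (T w - 1)
          linarith
        calc T w * Real.exp (-T w - lam * dist (g w) q)
            ≤ Real.exp (T w - 1) * Real.exp (-T w - lam * dist (g w) q) := by gcongr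
          _ = Real.exp (-1 - lam * dist (g w) q) := by rw [← Real.exp_add]; ring_nf
          _ ≤ Real.exp (-1 - lam * S) := Real.exp_le_exp.2 (by linarith)
      · -- inner boundary
        have h5 : ‖w‖ = δ := le_antisymm (not_lt.1 fun h6 => hwU ⟨h6, h4⟩) hwK.1
        have h6 : T w ≤ C * ‖w‖ ^ 2 := hδ₀b w (by
          rw [mem_ball, dist_zero_right, h5]; exact hδδ)
        rw [hP]
        simp only
        have h7 : ‖w‖ ^ 2 = Real.exp (2 * Real.log δ) := by
          rw [h5, ← Real.log_rpow hδ0, Real.exp_log (by positivity)]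
          norm_num
        calc T w * Real.exp (-T w - lam * dist (g w) q - s * Real.log ‖w‖)
            ≤ (C * ‖w‖ ^ 2) * Real.exp (-(lam * S) - s * Real.log ‖w‖) := by
              refine mul_le_mul h6 (Real.exp_le_exp.2 ?_) (Real.exp_pos _).le (by positivity)
              have := hT0 w
              linarith
          _ = (C * Real.exp ((2 - s) * Real.log δ)) * Real.exp (-(lam * S)) := by
              rw [h7, h5, mul_assoc, mul_assoc, ← Real.exp_add, ← Real.exp_add]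
              ring_nf
          _ ≤ Real.exp (-1) * Real.exp (-(lam * S)) := by gcongr
          _ = Real.exp (-1 - lam * S) := by rw [← Real.exp_add]; ring_nf
  -- the limit `s → 2`
  have hlim : T z * Real.exp (-T z - lam * dist (g z) q - 2 * Real.log ‖z‖) ≤
      Real.exp (-1 - lam * S) := by
    have hc2 : Continuous (fun s : ℝ => T z *
        Real.exp (-T z - lam * dist (g z) q - s * Real.log ‖z‖)) := by fun_prop
    have h1 := (hc2.tendsto 2).mono_left (nhdsWithin_le_nhds (s := Iio (2:ℝ)))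
    refine le_of_tendsto h1 ?_
    filter_upwards [Ioo_mem_nhdsLT (show (0:ℝ) < 2 by norm_num)] with s hs
    exact hmain s hs.1 hs.2
  have h2 : Real.exp (2 * Real.log ‖z‖) = ‖z‖ ^ 2 := by
    rw [← Real.log_rpow hzn, Real.exp_log (by positivity)]
    norm_num
  have h3 : T z = (T z * Real.exp (-T z - lam * dist (g z) q - 2 * Real.log ‖z‖)) *
      Real.exp (T z + lam * dist (g z) q + 2 * Real.log ‖z‖) := by
    rw [mul_assoc, ← Real.exp_add]
    simp
  have h4 := mul_le_mul_of_nonneg_right hlim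
    (Real.exp_pos (T z + lam * dist (g z) q + 2 * Real.log ‖z‖)).le
  rw [← h3, ← Real.exp_add] at h4
  refine h4.trans ?_
  rw [← h2, ← Real.exp_add]
  refine Real.exp_le_exp.2 ?_
  have := hT1 z
  nlinarith

/-- **Lemma L.** In a compact set where the distance to `q` is strictly superharmonic: if a point
`g z`, `|z| ≤ 1/2`, of a holomorphic disc `g` is almost nearest to `q` among the points of the
disc, it is close to the centre `g 0`. -/
theorem near_max (hK : IsKahler E M) {Q : Set M} (hQ : IsCompact Q) {q : M} {c : ℝ} (hc : 0 < c)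
    (hlev : ∀ x ∈ Q, LeviBound (E := E) q x (-c)) {ε : ℝ} (hε : 0 < ε) :
    ∃ t₀ > 0, ∀ g : ℂ → M,
      (∀ z ∈ closedBall (0:ℂ) 1, MDifferentiableAt 𝓘(ℂ, ℂ) 𝓘(ℂ, E) g z) →
      (∀ z ∈ closedBall (0:ℂ) 1, g z ∈ Q) → ∀ z ∈ closedBall (0:ℂ) (1/2),
      (∀ w ∈ closedBall (0:ℂ) 1, dist (g z) q ≤ dist (g w) q + t₀) → dist (g 0) (g z) < ε := by
  suffices H : ∃ t₀ > 0, ∀ g : ℂ → M,
      (∀ z ∈ closedBall (0:ℂ) 1, MDifferentiableAt 𝓘(ℂ, ℂ) 𝓘(ℂ, E) g z) →
      (∀ z ∈ closedBall (0:ℂ) 1, g z ∈ Q) → g 0 ∈ Q → ∀ z ∈ closedBall (0:ℂ) (1/2),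
      (∀ w ∈ closedBall (0:ℂ) 1, dist (g z) q ≤ dist (g w) q + t₀) → dist (g 0) (g z) < ε by
    obtain ⟨t₀, ht₀, H⟩ := H
    exact ⟨t₀, ht₀, fun g h1 h2 => H g h1 h2 (h2 0 (by simp))⟩
  refine hQ.induction_on (p := fun S => ∃ t₀ > 0, ∀ g : ℂ → M,
      (∀ z ∈ closedBall (0:ℂ) 1, MDifferentiableAt 𝓘(ℂ, ℂ) 𝓘(ℂ, E) g z) →
      (∀ z ∈ closedBall (0:ℂ) 1, g z ∈ Q) → g 0 ∈ S → ∀ z ∈ closedBall (0:ℂ) (1/2),
      (∀ w ∈ closedBall (0:ℂ) 1, dist (g z) q ≤ dist (g w) q + t₀) →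
      dist (g 0) (g z) < ε) ?_ ?_ ?_ ?_
  · exact ⟨1, one_pos, fun g _ _ h => absurd h (notMem_empty _)⟩
  · rintro S T hST ⟨t, ht, H⟩
    exact ⟨t, ht, fun g h1 h2 h3 => H g h1 h2 (hST h3)⟩
  · rintro S T ⟨t, ht, H⟩ ⟨t', ht', H'⟩
    refine ⟨min t t', lt_min ht ht', fun g h1 h2 h3 z hz hw => ?_⟩
    rcases h3 with h3 | h3
    · exact H g h1 h2 h3 z hz fun w hw' => (hw w hw').trans (by
        have := min_le_left t t'
        linarith)
    · exact H' g h1 h2 h3 z hz fun w hw' => (hw w hw').trans (by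
        have := min_le_right t t'
        linarith)
  intro x₁ _
  have he : chartAt E x₁ ∈ maximalAtlas 𝓘(ℂ, E) 1 M := chart_mem_maximalAtlas x₁
  have hx₁ : x₁ ∈ (chartAt E x₁).source := mem_chart_source E x₁
  set e := chartAt E x₁ with hed
  have hLK := localKahler_chartG hK he
  set ψ : E ≃L[ℂ] EuclideanSpace ℂ (Fin (finrank ℂ E)) :=
    ContinuousLinearEquiv.ofFinrankEq (by simp) with hψ
  -- a closed chart ball
  obtain ⟨r, hr, hrt⟩ : ∃ r > 0, cb ψ (e x₁) (2 * r) ⊆ e.target := by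
    have h1 : Tendsto (fun v => e x₁ + ψ.symm v) (𝓝 0) (𝓝 (e x₁)) := by
      have h2 : Continuous (fun v => e x₁ + ψ.symm v) := by fun_prop
      have := h2.tendsto 0
      simpa using this
    have h2 : ∀ᶠ v in 𝓝 0, e x₁ + ψ.symm v ∈ e.target :=
      h1.eventually (e.open_target.mem_nhds (e.map_source hx₁))
    obtain ⟨r, hr, hrb⟩ := Metric.eventually_nhds_iff_ball.1 h2
    refine ⟨r / 4, by positivity, fun y hy => ?_⟩
    have h3 := hrb (ψ (y - e x₁)) (by
      rw [mem_ball_zero_iff]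
      have : ‖ψ (y - e x₁)‖ ≤ 2 * (r / 4) := hy
      linarith)
    simpa using h3
  set B := cb ψ (e x₁) (2 * r) with hB
  have hBc : IsCompact B := isCompact_cb
  obtain ⟨m₀, hm₀, hlow⟩ := hLK.exists_lower hBc hrt
  set L : ℝ := ‖(ψ : E →L[ℂ] EuclideanSpace ℂ (Fin (finrank ℂ E)))‖ + 1 with hL
  have hL0 : 0 < L := by positivity
  set m : ℝ := L ^ 2 / m₀ with hm
  have hm0 : 0 < m := by positivity
  have hmB : ∀ y ∈ B, ∀ Y, ‖ψ Y‖ ^ 2 ≤ m * chartG e y Y Y := by
    intro y hy Y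
    have h1 := hlow y hy Y
    have h2 : ‖ψ Y‖ ≤ L * ‖Y‖ :=
      ((ψ : E →L[ℂ] EuclideanSpace ℂ (Fin (finrank ℂ E))).le_opNorm Y).trans
        (mul_le_mul_of_nonneg_right (by rw [hL]; linarith) (norm_nonneg _))
    calc ‖ψ Y‖ ^ 2 ≤ (L * ‖Y‖) ^ 2 := pow_le_pow_left₀ (norm_nonneg _) h2 2
      _ = m * (m₀ * ‖Y‖ ^ 2) := by rw [hm]; field_simp
      _ ≤ _ := mul_le_mul_of_nonneg_left h1 hm0.le
  -- uniform continuity of the inverse chart
  have huc : UniformContinuousOn e.symm B :=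
    hBc.uniformContinuousOn_of_continuous (e.continuousOn_symm.mono hrt)
  obtain ⟨δ, hδ, hδb⟩ := Metric.uniformContinuousOn_iff.1 huc ε hε
  set L' : ℝ := ‖(ψ.symm : EuclideanSpace ℂ (Fin (finrank ℂ E)) →L[ℂ] E)‖ + 1 with hL'
  have hL'0 : 0 < L' := by positivity
  set ρ : ℝ := min r (δ / L') with hρd
  have hρ : 0 < ρ := lt_min hr (by positivity)
  have hρr : ρ ≤ r := min_le_left _ _
  have hρδ : ρ * L' ≤ δ := by
    have h1 : ρ ≤ δ / L' := min_le_right _ _
    rwa [le_div_iff₀ hL'0] at h1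
  set lam : ℝ := 4 * m / ρ ^ 2 / c with hlam
  have hlam0 : 0 < lam := by positivity
  have hlamc : lam * c = 4 * m / ρ ^ 2 := by rw [hlam]; field_simp
  refine ⟨{x | x ∈ e.source ∧ ‖ψ (e x - e x₁)‖ < r}, mem_nhdsWithin_of_mem_nhds ?_, 1 / lam,
    by positivity, ?_⟩
  · have h1 : ContinuousAt (fun x => ‖ψ (e x - e x₁)‖) x₁ :=
      (ψ.continuous.continuousAt.comp ((e.continuousAt hx₁).sub continuousAt_const)).norm
    have h2 : ∀ᶠ x in 𝓝 x₁, ‖ψ (e x - e x₁)‖ < r :=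
      h1.eventually (eventually_lt_nhds (by simpa using hr))
    have h3 : ∀ᶠ x in 𝓝 x₁, x ∈ e.source := e.open_source.mem_nhds hx₁
    exact h3.and h2
  rintro g hg hgQ ⟨h0s, h0r⟩ z hz hw
  have hzn : ‖z‖ ≤ 1 / 2 := by simpa using hz
  have hsub : cb ψ (e (g 0)) ρ ⊆ B := by
    intro y hy
    have h1 : ‖ψ (y - e (g 0))‖ ≤ ρ := hy
    have h2 : ψ (y - e x₁) = ψ (y - e (g 0)) + ψ (e (g 0) - e x₁) := by
      rw [← map_add, sub_add_sub_cancel]
    change ‖ψ (y - e x₁)‖ ≤ 2 * r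
    rw [h2]
    refine (norm_add_le _ _).trans ?_
    linarith
  have h1 := sib hK he (ψ := ψ) hρ hc hlam0.le hlamc hlev h0s (hsub.trans hrt)
    (fun y hy => hmB y (hsub hy)) hg hgQ (S := dist (g z) q - 1 / lam)
    (fun w hw' => by have := hw w hw'; linarith) (z := z) (by linarith)
  have h2 : lam * (dist (g z) q - (dist (g z) q - 1 / lam)) = 1 := by
    field_simp
    ring
  rw [h2] at h1
  have h3 : th e ψ (e (g 0)) ρ (g z) < 1 := by
    refine h1.trans_lt ?_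
    have h4 := Real.exp_one_lt_d9
    have h5 : ‖z‖ ^ 2 ≤ (1 / 2) ^ 2 := pow_le_pow_left₀ (norm_nonneg _) hzn 2
    have h6 := Real.exp_pos 1
    nlinarith
  have h4 : g z ∈ db e ψ (e (g 0)) ρ := by
    by_contra h5
    rw [th_of_notMem_db hρ h5] at h3
    exact lt_irrefl _ h3
  have h5 : ‖ψ (e (g z) - e (g 0))‖ < ρ := by
    rw [th_of_mem h4.1] at h3
    have h6 : ‖ψ (e (g z) - e (g 0))‖ ^ 2 / ρ ^ 2 < 1 := by
      rcases min_lt_iff.1 h3 with h7 | h7
      · exact h7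
      · exact absurd h7 (lt_irrefl _)
    rw [div_lt_one (by positivity)] at h6
    exact lt_of_pow_lt_pow_left₀ 2 hρ.le h6
  have h6 : dist (e (g 0)) (e (g z)) < δ := by
    have h7 : e (g z) - e (g 0) = ψ.symm (ψ (e (g z) - e (g 0))) := by simp
    rw [dist_comm, dist_eq_norm, h7]
    refine ((ψ.symm : EuclideanSpace ℂ (Fin (finrank ℂ E)) →L[ℂ] E).le_opNorm _).trans_lt ?_
    refine lt_of_le_of_lt (mul_le_mul_of_nonneg_right (show
      ‖(ψ.symm : EuclideanSpace ℂ (Fin (finrank ℂ E)) →L[ℂ] E)‖ ≤ L' by rw [hL']; linarith)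
      (norm_nonneg _)) ?_
    calc L' * ‖ψ (e (g z) - e (g 0))‖ < L' * ρ := mul_lt_mul_of_pos_left h5 hL'0
      _ ≤ δ := by linarith
  have h0B : e (g 0) ∈ B := hsub (by
    change ‖ψ (e (g 0) - e (g 0))‖ ≤ ρ
    simpa using hρ.le)
  have h7 := hδb (e (g 0)) h0B (e (g z)) (hsub h4.2) h6
  rwa [e.left_inv h0s, e.left_inv h4.1] at h7

end Vale.Agent.P253.H805
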