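import Vale.Agent.P253.H805.IsoR
import Vale.Agent.P253.H445.Torus
import Vale.Agent.P253.H51.Cartan
import Vale.Agent.P253.H836.LimIso
import Vale.Agent.P253.H22.NeU
import Vale.Agent.P253.U165.Final
import Vale.Agent.P253.H22.Lyap

/-!
P253: sets of holomorphic isometries with a common fixed point without invariant monomials.
-/

open scoped Manifold ContDiff Topology Bundle
open Set Metric Complex Filter Bundle IsManifold Manifold Module Vale.Agent.P253.Mfd
  Vale.Agent.P253.H595 Vale.Agent.P253.R2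

set_option maxSynthPendingDepth 3
set_option linter.unusedSectionVars false

noncomputable section

namespace Vale.Agent.P253.H805

section cplx

variable {E : Type*} [NormedAddCommGroup E] [NormedSpace ℂ E]
  {M : Type*} [MetricSpace M] [ChartedSpace E M]

/-- the complex differential of a self-map, as an endomorphism of the model space -/
def dC (f : M → M) (x : M) : E →L[ℂ] E := mfderiv 𝓘(ℂ, E) 𝓘(ℂ, E) f x

variable [IsManifold 𝓘(ℂ, E) 1 M]

theorem dC_comp {f g : M → M} (hf : MDifferentiable 𝓘(ℂ, E) 𝓘(ℂ, E) f)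
    (hg : MDifferentiable 𝓘(ℂ, E) 𝓘(ℂ, E) g) (x : M) (w : E) :
    dC (E := E) (g ∘ f) x w = dC g (f x) (dC f x w) := by
  have h := mfderiv_comp (I := 𝓘(ℂ, E)) (I' := 𝓘(ℂ, E)) (I'' := 𝓘(ℂ, E)) x (hg (f x)) (hf x)
  exact congrArg (fun T : E →L[ℂ] E => T w) h

theorem dC_id (x : M) (w : E) : dC (E := E) (id : M → M) x w = w := by
  have h := mfderiv_id (I := 𝓘(ℂ, E)) (M := M) (x := x)
  exact congrArg (fun T : E →L[ℂ] E => T w) h

variable {n : ℕ} {p : M} {b : Module.Basis (Fin n) ℂ E}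

/-- `g` is a holomorphic map which preserves distances and fixes `p`; its differential at `p` is
`diag c` in the basis `b` -/
structure IsDiagIso (p : M) (b : Module.Basis (Fin n) ℂ E) (g : M → M) (c : Fin n → ℂ) : Prop where
  holo : MDifferentiable 𝓘(ℂ, E) 𝓘(ℂ, E) g
  dist_eq : ∀ x y, dist (g x) (g y) = dist x y
  fix : g p = p
  diag : ∀ j, dC (E := E) g p (b j) = c j • b j

theorem IsDiagIso.comp {g h : M → M} {c d : Fin n → ℂ} (hg : IsDiagIso p b g c)
    (hh : IsDiagIso p b h d) : IsDiagIso p b (g ∘ h) (c * d) where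
  holo := hg.holo.comp hh.holo
  dist_eq x y := by simp only [Function.comp_apply, hg.dist_eq, hh.dist_eq]
  fix := by simp only [Function.comp_apply, hg.fix, hh.fix]
  diag j := by
    rw [dC_comp hh.holo hg.holo, hh.fix, hh.diag, map_smul, hg.diag, smul_smul, Pi.mul_apply,
      mul_comm]

theorem isDiagIso_id : IsDiagIso p b (id : M → M) 1 where
  holo := mdifferentiable_id
  dist_eq _ _ := rfl
  fix := rfl
  diag j := by rw [dC_id, Pi.one_apply, one_smul]

theorem IsDiagIso.iterate {g : M → M} {c : Fin n → ℂ} (hg : IsDiagIso p b g c) (k : ℕ) :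
    IsDiagIso p b (g^[k]) (c ^ k) := by
  induction k with
  | zero => exact isDiagIso_id
  | succ k ih =>
    rw [Function.iterate_succ, pow_succ]
    exact ih.comp hg

theorem IsDiagIso.deriv_id {g : M → M} (hg : IsDiagIso p b g 1) (v : E) :
    dC (E := E) g p v = v := by
  have h1 : (dC (E := E) g p : E →ₗ[ℂ] E) = LinearMap.id := by
    refine b.ext fun j => ?_
    have := hg.diag j
    rw [Pi.one_apply, one_smul] at this
    exact this
  exact congrArg (fun T : E →ₗ[ℂ] E => T v) h1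

variable [FiniteDimensional ℂ E] [ProperSpace M]

/-- limits of diagonal isometries -/
theorem isDiagIso_limit {ι : Type*} (u : Ultrafilter ι) {g : ι → M → M} {c : ι → Fin n → ℂ}
    (hg : ∀ i, MDifferentiable 𝓘(ℂ, E) 𝓘(ℂ, E) (g i))
    (hd : ∀ i x y, dist (g i x) (g i y) = dist x y) (hp : ∀ i, g i p = p)
    (hdiag : ∀ᶠ i in (u : Filter ι), ∀ j, dC (E := E) (g i) p (b j) = c i j • b j)
    {d : Fin n → ℂ} (hc : Tendsto c u (𝓝 d)) :
    ∃ G : M → M, IsDiagIso p b G d ∧ ∀ x, Tendsto (fun i => g i x) u (𝓝 (G x)) := by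
  obtain ⟨G, h1, h2, h3, h4, h5⟩ := H836.exists_limit (E := E) u hg hd hp
  refine ⟨G, ⟨h1, h2, h3, fun j => ?_⟩, h4⟩
  have h6 : Tendsto (fun i => c i j • b j) u (𝓝 (d j • b j)) :=
    ((tendsto_pi_nhds.1 hc) j).smul_const (b j)
  refine tendsto_nhds_unique ((h5 (b j)).congr' ?_) h6
  filter_upwards [hdiag] with i hi using hi j

/-- the limit of the iterates along a suitable ultrafilter is the identity -/
theorem exists_ultra {f : M → M} (hfc : Continuous f)
    (hd : ∀ x y, dist (f x) (f y) = dist x y) (hp : f p = p) :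
    ∃ u : Ultrafilter ℕ, (u : Filter ℕ) ≤ atTop ∧
      ∀ x, Tendsto (fun k => f^[k] x) u (𝓝 x) := by
  have hb : ∃ x, Bornology.IsBounded (range fun k : ℕ => f^[k] x) := by
    refine ⟨p, (Bornology.isBounded_singleton (x := p)).subset ?_⟩
    rintro _ ⟨k, rfl⟩
    exact Function.iterate_fixed hp k
  obtain ⟨u, e, hu, he, hee, -, -⟩ := H22.exists_retraction hfc
    (H22.asympNonexp_of_lip fun x y => (hd x y).le) hb
  have hk : ∀ k x y, dist (f^[k] x) (f^[k] y) = dist x y := by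
    intro k
    induction k with
    | zero => intro x y; rfl
    | succ k ih => intro x y; rw [Function.iterate_succ_apply', Function.iterate_succ_apply', hd, ih]
  have hiso : ∀ x y, dist (e x) (e y) = dist x y := by
    intro x y
    refine tendsto_nhds_unique ((he x).dist (he y)) ?_
    simp only [hk]
    exact tendsto_const_nhds
  have hid : ∀ x, e x = x := by
    intro x
    rw [← dist_eq_zero, ← hiso, hee, dist_self]
  refine ⟨u, hu, fun x => ?_⟩
  have := he x
  rwa [hid] at this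

theorem IsDiagIso.norm_eq_one {f : M → M} {c : Fin n → ℂ} (hf : IsDiagIso p b f c) (j : Fin n) :
    ‖c j‖ = 1 := by
  obtain ⟨u, hu, hlim⟩ := exists_ultra hf.holo.continuous hf.dist_eq hf.fix
  obtain ⟨G, h1, h2, h3, h4, h5⟩ := H836.exists_limit (E := E) u (g := fun k => f^[k])
    (fun k => (hf.iterate k).holo) (fun k => (hf.iterate k).dist_eq) (fun k => (hf.iterate k).fix)
  have hG : G = id := by
    funext x
    exact tendsto_nhds_unique (h4 x) (hlim x)
  have h6 : Tendsto (fun k => (c ^ k) j • b j) u (𝓝 (b j)) := by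
    have h7 := h5 (b j)
    rw [hG] at h7
    have h8 : dC (E := E) (id : M → M) p (b j) = b j := dC_id p (b j)
    have h9 : Tendsto (fun k => dC (E := E) (f^[k]) p (b j)) u (𝓝 (b j)) := by
      have : (mfderiv 𝓘(ℂ, E) 𝓘(ℂ, E) (id : M → M) p : E → E) (b j) = b j := h8
      rw [this] at h7
      exact h7
    refine h9.congr fun k => ?_
    exact (hf.iterate k).diag j
  have hb : ‖b j‖ ≠ 0 := norm_ne_zero_iff.2 (b.ne_zero j)
  have h7 : Tendsto (fun k : ℕ => ‖c j‖ ^ k * ‖b j‖) u (𝓝 ‖b j‖) := by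
    refine h6.norm.congr fun k => ?_
    rw [norm_smul, Pi.pow_apply, norm_pow]
  have h8 : Tendsto (fun k : ℕ => ‖c j‖ ^ k) u (𝓝 1) := by
    have h9 := h7.div_const ‖b j‖
    rw [div_self hb] at h9
    refine h9.congr fun k => ?_
    rw [mul_div_cancel_right₀ _ hb]
  rcases lt_trichotomy ‖c j‖ 1 with h | h | h
  · have h9 := (tendsto_pow_atTop_nhds_zero_of_lt_one (norm_nonneg _) h).mono_left hu
    exact absurd (tendsto_nhds_unique h8 h9) one_ne_zero
  · exact h
  · have h9 := (tendsto_pow_atTop_atTop_of_one_lt h).mono_left hu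
    exact absurd h8 (not_tendsto_nhds_of_tendsto_atTop h9 1)

theorem IsDiagIso.exists_inv {f : M → M} {c : Fin n → ℂ} (hf : IsDiagIso p b f c) :
    ∃ g : M → M, IsDiagIso p b g c⁻¹ ∧ ∀ x, g (f x) = x := by
  obtain ⟨u, hu, hlim⟩ := exists_ultra hf.holo.continuous hf.dist_eq hf.fix
  obtain ⟨G, h1, h2, h3, h4, h5⟩ := H836.exists_limit (E := E) u (g := fun k => f^[k - 1])
    (fun k => (hf.iterate (k - 1)).holo) (fun k => (hf.iterate (k - 1)).dist_eq)
    (fun k => (hf.iterate (k - 1)).fix)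
  have hGf : ∀ x, G (f x) = x := by
    intro x
    refine tendsto_nhds_unique (h4 (f x)) ((hlim x).congr' ?_)
    filter_upwards [hu (eventually_ge_atTop 1)] with k hk
    obtain ⟨i, rfl⟩ : ∃ i, k = i + 1 := ⟨k - 1, by omega⟩
    rw [Nat.add_sub_cancel, Function.iterate_succ_apply]
  refine ⟨G, ⟨h1, h2, h3, fun j => ?_⟩, hGf⟩
  have h6 : G ∘ f = id := funext hGf
  have h7 := dC_comp hf.holo h1 p (b j)
  rw [h6, dC_id, hf.fix, hf.diag, map_smul] at h7
  have hc : c j ≠ 0 := by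
    rw [← norm_ne_zero_iff, hf.norm_eq_one j]
    exact one_ne_zero
  rw [Pi.inv_apply]
  calc dC (E := E) G p (b j) = (c j)⁻¹ • (c j • dC (E := E) G p (b j)) := by
        rw [smul_smul, inv_mul_cancel₀ hc, one_smul]
    _ = (c j)⁻¹ • b j := by rw [← h7]

theorem IsDiagIso.unique [ConnectedSpace M] {f g : M → M} {c : Fin n → ℂ}
    (hf : IsDiagIso p b f c) (hg : IsDiagIso p b g c) : f = g := by
  obtain ⟨h, hh, hhg⟩ := hg.exists_inv
  have h1 := hh.comp hf
  have h2 : c⁻¹ * c = 1 := by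
    funext j
    have hc : c j ≠ 0 := by
      rw [← norm_ne_zero_iff, hf.norm_eq_one j]
      exact one_ne_zero
    simp [hc]
  rw [h2] at h1
  funext x
  have h3 : h (f x) = x := eq_id_of_deriv (E := E) h1.holo h1.dist_eq h1.fix h1.deriv_id x
  have h4 := hh.dist_eq (f x) (g x)
  rw [h3, hhg, dist_self] at h4
  exact dist_eq_zero.1 h4.symm

/-- the set of the eigenvalues is closed -/
theorem exists_of_mem_closure {c : Fin n → ℂ}
    (hc : c ∈ closure {c | ∃ g : M → M, IsDiagIso p b g c}) : ∃ g : M → M, IsDiagIso p b g c := by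
  classical
  obtain ⟨u, hu, huc⟩ := mem_closure_iff_ultrafilter.1 hc
  set g : (Fin n → ℂ) → M → M := fun d =>
    if h : ∃ g : M → M, IsDiagIso p b g d then h.choose else id with hg
  have h1 : ∀ d, (∃ g : M → M, IsDiagIso p b g d) → IsDiagIso p b (g d) d := by
    intro d h
    simp only [hg, dif_pos h]
    exact h.choose_spec
  have h2 : ∀ d, MDifferentiable 𝓘(ℂ, E) 𝓘(ℂ, E) (g d) ∧
      (∀ x y, dist (g d x) (g d y) = dist x y) ∧ g d p = p := by
    intro d
    by_cases h : ∃ g : M → M, IsDiagIso p b g d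
    · exact ⟨(h1 d h).holo, (h1 d h).dist_eq, (h1 d h).fix⟩
    · simp only [hg, dif_neg h]
      exact ⟨mdifferentiable_id, fun _ _ => rfl, rfl⟩
  obtain ⟨G, hG, -⟩ := isDiagIso_limit (E := E) (p := p) (b := b) u (g := g) (c := id)
    (fun d => (h2 d).1) (fun d => (h2 d).2.1) (fun d => (h2 d).2.2)
    (by filter_upwards [hu] with d hd using (h1 d hd).diag) (d := c) huc
  exact ⟨G, hG⟩

/-- the one-parameter group -/
theorem exists_group [ConnectedSpace M]
    (hinv : ∀ a : Fin n → ℕ, a ≠ 0 →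
      ∃ (g : M → M) (c : Fin n → ℂ), IsDiagIso p b g c ∧ ∏ j, c j ^ a j ≠ 1) :
    ∃ (m : Fin n → ℝ) (ρ : ℝ → M → M), (∀ j, 0 < m j) ∧
      (∀ t, IsDiagIso p b (ρ t) (fun j => Complex.exp (t * m j * Complex.I))) ∧
      (∀ x, ρ 0 x = x) ∧ (∀ s t x, ρ (s + t) x = ρ s (ρ t x)) ∧
      Continuous (fun q : ℝ × M => ρ q.1 q.2) := by
  obtain ⟨m, hm, hcl⟩ := H445.exists_pos_flow (S := {c | ∃ g : M → M, IsDiagIso p b g c})
    (by rintro c ⟨g, hg⟩ j; exact hg.norm_eq_one j) ⟨id, isDiagIso_id⟩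
    (by rintro c ⟨g, hg⟩ d ⟨h, hh⟩; exact ⟨g ∘ h, hg.comp hh⟩)
    (by
      intro a ha
      obtain ⟨g, c, hg, hc⟩ := hinv a ha
      exact ⟨c, ⟨g, hg⟩, hc⟩)
  choose ρ hρ using fun t : ℝ => exists_of_mem_closure (E := E) (hcl t)
  have h0 : ρ 0 = id := by
    refine (hρ 0).unique (E := E) ?_
    have h1 : (fun j => Complex.exp (((0:ℝ):ℂ) * m j * Complex.I)) = (1 : Fin n → ℂ) := by
      funext j
      simp
    rw [h1]
    exact isDiagIso_id
  have hadd : ∀ s t, ρ (s + t) = ρ s ∘ ρ t := by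
    intro s t
    refine (hρ (s + t)).unique (E := E) ?_
    have h1 : (fun j => Complex.exp (((s + t : ℝ):ℂ) * m j * Complex.I)) =
        (fun j => Complex.exp ((s:ℂ) * m j * Complex.I)) *
          (fun j => Complex.exp ((t:ℂ) * m j * Complex.I)) := by
      funext j
      rw [Pi.mul_apply, ← Complex.exp_add]
      congr 1
      push_cast
      ring
    rw [h1]
    exact (hρ s).comp (hρ t)
  have hlim : ∀ x, Tendsto (fun t => ρ t x) (𝓝 0) (𝓝 x) := by
    intro x
    rw [tendsto_iff_ultrafilter]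
    intro v hv
    have h1 : Tendsto (fun t : ℝ => (fun j => Complex.exp ((t:ℂ) * m j * Complex.I))) (𝓝 0)
        (𝓝 (fun j => Complex.exp (((0:ℝ):ℂ) * m j * Complex.I))) := by
      apply Continuous.tendsto
      fun_prop
    have h2 : (fun j => Complex.exp (((0:ℝ):ℂ) * m j * Complex.I)) = (1 : Fin n → ℂ) := by
      funext j
      simp
    rw [h2] at h1
    obtain ⟨G, hG, h3⟩ := isDiagIso_limit (E := E) (p := p) (b := b) v (g := ρ)
      (fun t => (hρ t).holo) (fun t => (hρ t).dist_eq) (fun t => (hρ t).fix)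
      (Eventually.of_forall fun t => (hρ t).diag) (h1.mono_left hv)
    have h4 : G = id := hG.unique (E := E) isDiagIso_id
    have h5 := h3 x
    rw [h4] at h5
    exact h5
  refine ⟨m, ρ, hm, hρ, fun x => by rw [h0]; rfl, fun s t x => by rw [hadd]; rfl, ?_⟩
  rw [continuous_iff_continuousAt]
  rintro ⟨t₀, y₀⟩
  unfold ContinuousAt
  rw [tendsto_iff_dist_tendsto_zero]
  have h1 : Tendsto (fun q : ℝ × M => dist q.2 y₀ + dist (ρ (q.1 - t₀) y₀) y₀) (𝓝 (t₀, y₀))
      (𝓝 (0 + 0)) := by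
    refine Tendsto.add ?_ ?_
    · have h2 : Tendsto (fun q : ℝ × M => dist q.2 y₀) (𝓝 (t₀, y₀)) (𝓝 (dist y₀ y₀)) :=
        (continuous_snd.dist continuous_const).tendsto _
      rwa [dist_self] at h2
    · have h2 : Tendsto (fun q : ℝ × M => q.1 - t₀) (𝓝 (t₀, y₀)) (𝓝 (t₀ - t₀)) :=
        (continuous_fst.sub continuous_const).tendsto _
      rw [sub_self] at h2
      have h3 := (hlim y₀).comp h2
      have h4 := h3.dist (tendsto_const_nhds (x := y₀))
      rwa [dist_self] at h4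
  rw [add_zero] at h1
  refine squeeze_zero (fun _ => dist_nonneg) (fun q => ?_) h1
  have h2 : ρ q.1 y₀ = ρ t₀ (ρ (q.1 - t₀) y₀) := by
    have h3 := congrFun (hadd t₀ (q.1 - t₀)) y₀
    rw [add_sub_cancel] at h3
    exact h3
  have h3 := dist_triangle (ρ q.1 q.2) (ρ q.1 y₀) (ρ t₀ y₀)
  rw [(hρ q.1).dist_eq] at h3
  have h4 : dist (ρ q.1 y₀) (ρ t₀ y₀) = dist (ρ (q.1 - t₀) y₀) y₀ := by
    rw [h2, (hρ t₀).dist_eq]
  rw [h4] at h3
  exact h3

end cplx

variable {E : Type*} [NormedAddCommGroup E] [NormedSpace ℂ E] [FiniteDimensional ℂ E]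
  {M : Type*} [MetricSpace M] [ChartedSpace E M]
  [IsManifold 𝓘(ℂ, E) 1 M] [IsManifold 𝓘(ℝ, E) ∞ M]
  [RiemannianBundle (fun x : M => TangentSpace 𝓘(ℝ, E) x)]
  [IsContMDiffRiemannianBundle 𝓘(ℝ, E) ∞ E (fun x : M => TangentSpace 𝓘(ℝ, E) x)]
  [IsRiemannianManifold 𝓘(ℝ, E) M]

/-- **holomorphic isometries with a common fixed point without invariant monomials** -/
theorem main_iso (hK : IsKahler E M) [CompleteSpace M] [NoncompactSpace M] [ConnectedSpace M]
    (hnn : ∀ x : M, NonnegBisectionalAt E x) {p : M} (hpos : PosBisectionalAt E p)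
    {b : Module.Basis (Fin (Module.finrank ℂ E)) ℂ E}
    (hinv : ∀ a : Fin (Module.finrank ℂ E) → ℕ, a ≠ 0 →
      ∃ (g : M → M) (c : Fin (Module.finrank ℂ E) → ℂ), IsDiagIso p b g c ∧ ∏ j, c j ^ a j ≠ 1) :
    ∃ (ρ : ℝ → M → M) (m : Fin (Module.finrank ℂ E) → ℝ) (F : M ≃ₘ^1⟮𝓘(ℂ, E), 𝓘(ℂ, E)⟯ E),
      IsHolIsomFlow E ρ ∧ HasWeights ρ p b m ∧ IsLinearization ρ p F ∧
        ∃ C > 0, ∀ x : M, ‖F x‖ ≤ C * Real.exp (C * dist p x) := by
  have hprop : ProperSpace M := properSpace_riemannian E M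
  obtain ⟨m, ρ, hm, hρ, h0, hadd, hcont⟩ := exists_group (E := E) hinv
  have hsemi : H567.IsHolSemigroup E ρ :=
    ⟨h0, fun s t x _ _ => hadd s t x, hcont.continuousOn, fun t _ => (hρ t).holo⟩
  obtain ⟨ψ, hψ, hψρ⟩ := H567.hasSExt_of_nonneg hK hnn ρ hsemi
  have hall : ∀ (t : ℝ) x, ψ t x = ρ t x := by
    intro t x
    rcases le_total 0 t with ht | ht
    · exact hψρ t ht x
    · have h1 : ψ (((-t : ℝ)) : ℂ) (ρ t x) = x := by
        rw [hψρ (-t) (neg_nonneg.2 ht), ← hadd, neg_add_cancel, h0]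
      calc ψ t x = ψ t (ψ ((-t : ℝ) : ℂ) (ρ t x)) := by rw [h1]
        _ = ρ t x := by
          rw [← hψ.add, ← ofReal_add, add_neg_cancel, ofReal_zero, hψ.zero]
  have hfl : IsHolIsomFlow E (fun (t : ℝ) x => ψ t x) :=
    isomFlow_of_cflow hK hψ fun t x y => by rw [hall, hall, (hρ t).dist_eq]
  have heq : (fun (t : ℝ) x => ψ t x) = ρ := by
    funext t x
    exact hall t x
  rw [heq] at hfl
  have hw : HasWeights ρ p b m := ⟨fun t => (hρ t).fix, hm, fun t j => (hρ t).diag j⟩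
  obtain ⟨F, hF, hgr, -⟩ := U165.main_weights hK hnn hfl hpos hw
  exact ⟨ρ, m, F, hfl, hw, hF, hgr⟩

/-- the same, in plain letters: `S` is a set of holomorphic isometries which fix `p`, with
differentials at `p` diagonal in one basis, without nonconstant invariant monomials -/
theorem main_isoset (hK : IsKahler E M) [CompleteSpace M] [NoncompactSpace M] [ConnectedSpace M]
    (hnn : ∀ x : M, NonnegBisectionalAt E x) {p : M} (hpos : PosBisectionalAt E p)
    {S : Set (M → M)}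
    (hS : ∀ f ∈ S, MDifferentiable 𝓘(ℂ, E) 𝓘(ℂ, E) f ∧ Isometry f ∧ f p = p)
    {b : Module.Basis (Fin (Module.finrank ℂ E)) ℂ E}
    {lam : (M → M) → Fin (Module.finrank ℂ E) → ℂ}
    (hlam : ∀ f ∈ S, ∀ j, (mfderiv 𝓘(ℂ, E) 𝓘(ℂ, E) f p : E → E) (b j) = lam f j • b j)
    (hinv : ∀ a : Fin (Module.finrank ℂ E) → ℕ, a ≠ 0 → ∃ f ∈ S, ∏ j, lam f j ^ a j ≠ 1) :
    ∃ F : M ≃ₘ^1⟮𝓘(ℂ, E), 𝓘(ℂ, E)⟯ E, F p = 0 ∧
      ∀ v : E, (mfderiv 𝓘(ℂ, E) 𝓘(ℂ, E) F p : E → E) v = v := by
  obtain ⟨_, _, F, _, _, hF, _⟩ := main_iso hK hnn hpos (b := b) (fun a ha => by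
    obtain ⟨f, hf, h⟩ := hinv a ha
    exact ⟨f, lam f, ⟨(hS f hf).1, (hS f hf).2.1.dist_eq, (hS f hf).2.2, hlam f hf⟩, h⟩)
  exact ⟨F, hF.base, hF.deriv⟩

end Vale.Agent.P253.H805
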