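import Vale.Agent.P253.H805.Near

/-!
P253: a uniform form of Sibony's estimate on a compact set, and equicontinuity of the holomorphic
discs in a compact set.
-/

open scoped Manifold ContDiff Topology Bundle
open Set Metric Complex Filter Bundle IsManifold Manifold Module Vale.Agent.P253.Mfd

set_option maxSynthPendingDepth 3
set_option linter.unusedSectionVars false

noncomputable section

namespace Vale.Agent.P253.H805

variable {E : Type*} [NormedAddCommGroup E] [NormedSpace ℂ E] [FiniteDimensional ℂ E]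
  {M : Type*} [MetricSpace M] [ChartedSpace E M]
  {F : Type*} [NormedAddCommGroup F] [InnerProductSpace ℂ F] [FiniteDimensional ℂ F]
  [IsManifold 𝓘(ℂ, E) 1 M] [IsManifold 𝓘(ℝ, E) ∞ M]
  [RiemannianBundle (fun x : M => TangentSpace 𝓘(ℝ, E) x)]
  [IsContMDiffRiemannianBundle 𝓘(ℝ, E) ∞ E (fun x : M => TangentSpace 𝓘(ℝ, E) x)]
  [IsRiemannianManifold 𝓘(ℝ, E) M]

/-- **uniform Sibony estimate**: there is one constant `lam` for all holomorphic discs in the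
compact set `Q` (`S` is a lower bound for the distance to `q` on the disc) -/
theorem key (hK : IsKahler E M) {Q : Set M} (hQ : IsCompact Q) {q : M} {c : ℝ} (hc : 0 < c)
    (hlev : ∀ x ∈ Q, LeviBound (E := E) q x (-c)) {ε : ℝ} (hε : 0 < ε) :
    ∃ lam > 0, ∀ g : ℂ → M,
      (∀ z ∈ closedBall (0:ℂ) 1, MDifferentiableAt 𝓘(ℂ, ℂ) 𝓘(ℂ, E) g z) →
      (∀ z ∈ closedBall (0:ℂ) 1, g z ∈ Q) → ∀ z : ℂ, ‖z‖ ≤ 1 → ∀ S : ℝ,
      (∀ w ∈ closedBall (0:ℂ) 1, S ≤ dist (g w) q) →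
      ‖z‖ ^ 2 * Real.exp (lam * (dist (g z) q - S)) < 1 → dist (g 0) (g z) < ε := by
  suffices H : ∃ lam > 0, ∀ g : ℂ → M,
      (∀ z ∈ closedBall (0:ℂ) 1, MDifferentiableAt 𝓘(ℂ, ℂ) 𝓘(ℂ, E) g z) →
      (∀ z ∈ closedBall (0:ℂ) 1, g z ∈ Q) → g 0 ∈ Q → ∀ z : ℂ, ‖z‖ ≤ 1 → ∀ S : ℝ,
      (∀ w ∈ closedBall (0:ℂ) 1, S ≤ dist (g w) q) →
      ‖z‖ ^ 2 * Real.exp (lam * (dist (g z) q - S)) < 1 → dist (g 0) (g z) < ε by
    obtain ⟨lam, hlam, H⟩ := H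
    exact ⟨lam, hlam, fun g h1 h2 => H g h1 h2 (h2 0 (by simp))⟩
  have hmono : ∀ {lam lam' a d : ℝ}, lam ≤ lam' → 0 ≤ d →
      a ^ 2 * Real.exp (lam' * d) < 1 → a ^ 2 * Real.exp (lam * d) < 1 := by
    intro lam lam' a d h1 h2 h3
    refine lt_of_le_of_lt (mul_le_mul_of_nonneg_left (Real.exp_le_exp.2 ?_) (sq_nonneg a)) h3
    exact mul_le_mul_of_nonneg_right h1 h2
  refine hQ.induction_on (p := fun T => ∃ lam > 0, ∀ g : ℂ → M,
      (∀ z ∈ closedBall (0:ℂ) 1, MDifferentiableAt 𝓘(ℂ, ℂ) 𝓘(ℂ, E) g z) →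
      (∀ z ∈ closedBall (0:ℂ) 1, g z ∈ Q) → g 0 ∈ T → ∀ z : ℂ, ‖z‖ ≤ 1 → ∀ S : ℝ,
      (∀ w ∈ closedBall (0:ℂ) 1, S ≤ dist (g w) q) →
      ‖z‖ ^ 2 * Real.exp (lam * (dist (g z) q - S)) < 1 →
      dist (g 0) (g z) < ε) ?_ ?_ ?_ ?_
  · exact ⟨1, one_pos, fun g _ _ h => absurd h (notMem_empty _)⟩
  · rintro S T hST ⟨t, ht, H⟩
    exact ⟨t, ht, fun g h1 h2 h3 => H g h1 h2 (hST h3)⟩
  · rintro T T' ⟨t, ht, H⟩ ⟨t', ht', H'⟩
    refine ⟨max t t', lt_max_of_lt_left ht, fun g h1 h2 h3 z hz S hS h4 => ?_⟩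
    have hd : 0 ≤ dist (g z) q - S := sub_nonneg.2 (hS z (by simpa using hz))
    rcases h3 with h3 | h3
    · exact H g h1 h2 h3 z hz S hS (hmono (le_max_left t t') hd h4)
    · exact H' g h1 h2 h3 z hz S hS (hmono (le_max_right t t') hd h4)
  intro x₁ _
  have he : chartAt E x₁ ∈ maximalAtlas 𝓘(ℂ, E) 1 M := chart_mem_maximalAtlas x₁
  have hx₁ : x₁ ∈ (chartAt E x₁).source := mem_chart_source E x₁
  set e := chartAt E x₁ with hed
  have hLK := localKahler_chartG hK he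
  set ψ : E ≃L[ℂ] EuclideanSpace ℂ (Fin (finrank ℂ E)) :=
    ContinuousLinearEquiv.ofFinrankEq (by simp) with hψ
  -- a closed chart ball
  obtain ⟨r, hr, hrt⟩ : ∃ r > 0, cb ψ (e x₁) (2 * r) ⊆ e.target := by
    have h1 : Tendsto (fun v => e x₁ + ψ.symm v) (𝓝 0) (𝓝 (e x₁)) := by
      have h2 : Continuous (fun v => e x₁ + ψ.symm v) := by fun_prop
      have := h2.tendsto 0
      simpa using this
    have h2 : ∀ᶠ v in 𝓝 0, e x₁ + ψ.symm v ∈ e.target :=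
      h1.eventually (e.open_target.mem_nhds (e.map_source hx₁))
    obtain ⟨r, hr, hrb⟩ := Metric.eventually_nhds_iff_ball.1 h2
    refine ⟨r / 4, by positivity, fun y hy => ?_⟩
    have h3 := hrb (ψ (y - e x₁)) (by
      rw [mem_ball_zero_iff]
      have : ‖ψ (y - e x₁)‖ ≤ 2 * (r / 4) := hy
      linarith)
    simpa using h3
  set B := cb ψ (e x₁) (2 * r) with hB
  have hBc : IsCompact B := isCompact_cb
  obtain ⟨m₀, hm₀, hlow⟩ := hLK.exists_lower hBc hrt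
  set L : ℝ := ‖(ψ : E →L[ℂ] EuclideanSpace ℂ (Fin (finrank ℂ E)))‖ + 1 with hL
  have hL0 : 0 < L := by positivity
  set m : ℝ := L ^ 2 / m₀ with hm
  have hm0 : 0 < m := by positivity
  have hmB : ∀ y ∈ B, ∀ Y, ‖ψ Y‖ ^ 2 ≤ m * chartG e y Y Y := by
    intro y hy Y
    have h1 := hlow y hy Y
    have h2 : ‖ψ Y‖ ≤ L * ‖Y‖ :=
      ((ψ : E →L[ℂ] EuclideanSpace ℂ (Fin (finrank ℂ E))).le_opNorm Y).trans
        (mul_le_mul_of_nonneg_right (by rw [hL]; linarith) (norm_nonneg _))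
    calc ‖ψ Y‖ ^ 2 ≤ (L * ‖Y‖) ^ 2 := pow_le_pow_left₀ (norm_nonneg _) h2 2
      _ = m * (m₀ * ‖Y‖ ^ 2) := by rw [hm]; field_simp
      _ ≤ _ := mul_le_mul_of_nonneg_left h1 hm0.le
  -- uniform continuity of the inverse chart
  have huc : UniformContinuousOn e.symm B :=
    hBc.uniformContinuousOn_of_continuous (e.continuousOn_symm.mono hrt)
  obtain ⟨δ, hδ, hδb⟩ := Metric.uniformContinuousOn_iff.1 huc ε hε
  set L' : ℝ := ‖(ψ.symm : EuclideanSpace ℂ (Fin (finrank ℂ E)) →L[ℂ] E)‖ + 1 with hL'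
  have hL'0 : 0 < L' := by positivity
  set ρ : ℝ := min r (δ / L') with hρd
  have hρ : 0 < ρ := lt_min hr (by positivity)
  have hρr : ρ ≤ r := min_le_left _ _
  have hρδ : ρ * L' ≤ δ := by
    have h1 : ρ ≤ δ / L' := min_le_right _ _
    rwa [le_div_iff₀ hL'0] at h1
  set lam : ℝ := 4 * m / ρ ^ 2 / c with hlam
  have hlam0 : 0 < lam := by positivity
  have hlamc : lam * c = 4 * m / ρ ^ 2 := by rw [hlam]; field_simp
  refine ⟨{x | x ∈ e.source ∧ ‖ψ (e x - e x₁)‖ < r}, mem_nhdsWithin_of_mem_nhds ?_, lam,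
    hlam0, ?_⟩
  · have h1 : ContinuousAt (fun x => ‖ψ (e x - e x₁)‖) x₁ :=
      (ψ.continuous.continuousAt.comp ((e.continuousAt hx₁).sub continuousAt_const)).norm
    have h2 : ∀ᶠ x in 𝓝 x₁, ‖ψ (e x - e x₁)‖ < r :=
      h1.eventually (eventually_lt_nhds (by simpa using hr))
    have h3 : ∀ᶠ x in 𝓝 x₁, x ∈ e.source := e.open_source.mem_nhds hx₁
    exact h3.and h2
  rintro g hg hgQ ⟨h0s, h0r⟩ z hz S hS hlt
  have hsub : cb ψ (e (g 0)) ρ ⊆ B := by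
    intro y hy
    have h1 : ‖ψ (y - e (g 0))‖ ≤ ρ := hy
    have h2 : ψ (y - e x₁) = ψ (y - e (g 0)) + ψ (e (g 0) - e x₁) := by
      rw [← map_add, sub_add_sub_cancel]
    change ‖ψ (y - e x₁)‖ ≤ 2 * r
    rw [h2]
    refine (norm_add_le _ _).trans ?_
    linarith
  have h1 := sib hK he (ψ := ψ) hρ hc hlam0.le hlamc hlev h0s (hsub.trans hrt)
    (fun y hy => hmB y (hsub hy)) hg hgQ hS hz
  have h3 : th e ψ (e (g 0)) ρ (g z) < 1 := h1.trans_lt hlt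
  have h4 : g z ∈ db e ψ (e (g 0)) ρ := by
    by_contra h5
    rw [th_of_notMem_db hρ h5] at h3
    exact lt_irrefl _ h3
  have h5 : ‖ψ (e (g z) - e (g 0))‖ < ρ := by
    rw [th_of_mem h4.1] at h3
    have h6 : ‖ψ (e (g z) - e (g 0))‖ ^ 2 / ρ ^ 2 < 1 := by
      rcases min_lt_iff.1 h3 with h7 | h7
      · exact h7
      · exact absurd h7 (lt_irrefl _)
    rw [div_lt_one (by positivity)] at h6
    exact lt_of_pow_lt_pow_left₀ 2 hρ.le h6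
  have h6 : dist (e (g 0)) (e (g z)) < δ := by
    have h7 : e (g z) - e (g 0) = ψ.symm (ψ (e (g z) - e (g 0))) := by simp
    rw [dist_comm, dist_eq_norm, h7]
    refine ((ψ.symm : EuclideanSpace ℂ (Fin (finrank ℂ E)) →L[ℂ] E).le_opNorm _).trans_lt ?_
    refine lt_of_le_of_lt (mul_le_mul_of_nonneg_right (show
      ‖(ψ.symm : EuclideanSpace ℂ (Fin (finrank ℂ E)) →L[ℂ] E)‖ ≤ L' by rw [hL']; linarith)
      (norm_nonneg _)) ?_
    calc L' * ‖ψ (e (g z) - e (g 0))‖ < L' * ρ := mul_lt_mul_of_pos_left h5 hL'0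
      _ ≤ δ := by linarith
  have h0B : e (g 0) ∈ B := hsub (by
    change ‖ψ (e (g 0) - e (g 0))‖ ≤ ρ
    simpa using hρ.le)
  have h7 := hδb (e (g 0)) h0B (e (g z)) (hsub h4.2) h6
  rwa [e.left_inv h0s, e.left_inv h4.1] at h7

/-- **equicontinuity** of the holomorphic discs in a compact set -/
theorem equi (hK : IsKahler E M) {Q : Set M} (hQ : IsCompact Q) {q : M} {c : ℝ} (hc : 0 < c)
    (hlev : ∀ x ∈ Q, LeviBound (E := E) q x (-c)) {ε : ℝ} (hε : 0 < ε) :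
    ∃ δ > 0, δ ≤ 1 / 2 ∧ ∀ g : ℂ → M,
      (∀ z ∈ closedBall (0:ℂ) 1, MDifferentiableAt 𝓘(ℂ, ℂ) 𝓘(ℂ, E) g z) →
      (∀ z ∈ closedBall (0:ℂ) 1, g z ∈ Q) → ∀ z ∈ closedBall (0:ℂ) δ, dist (g 0) (g z) < ε := by
  obtain ⟨lam, hlam, H⟩ := key hK hQ hc hlev hε
  obtain ⟨D, hD⟩ := hQ.isBounded.subset_closedBall q
  have hDq : ∀ x ∈ Q, dist x q ≤ D := fun x hx => hD hx
  have hlim : Tendsto (fun δ : ℝ => δ ^ 2 * Real.exp (lam * D)) (𝓝[>] 0) (𝓝 0) := by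
    have h1 : Continuous (fun δ : ℝ => δ ^ 2 * Real.exp (lam * D)) := by fun_prop
    have := (h1.tendsto 0).mono_left (nhdsWithin_le_nhds (s := Ioi (0:ℝ)))
    simpa using this
  have hIoo : ∀ᶠ δ : ℝ in 𝓝[>] 0, δ ∈ Ioo (0:ℝ) (1 / 2) := Ioo_mem_nhdsGT (by norm_num)
  obtain ⟨δ, h1, h2⟩ := ((hlim.eventually (eventually_lt_nhds (one_pos))).and hIoo).exists
  refine ⟨δ, h2.1, h2.2.le, fun g hg hgQ z hz => ?_⟩
  have hzn : ‖z‖ ≤ δ := by simpa using hz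
  have hz1 : ‖z‖ ≤ 1 := by linarith [h2.2]
  refine H g hg hgQ z hz1 0 (fun w _ => dist_nonneg) (lt_of_le_of_lt ?_ h1)
  have h3 := hDq (g z) (hgQ z (by simpa using hz1))
  have h4 : ‖z‖ ^ 2 ≤ δ ^ 2 := pow_le_pow_left₀ (norm_nonneg _) hzn 2
  have h5 : Real.exp (lam * (dist (g z) q - 0)) ≤ Real.exp (lam * D) := by
    refine Real.exp_le_exp.2 (mul_le_mul_of_nonneg_left ?_ hlam.le)
    linarith
  exact mul_le_mul h4 h5 (Real.exp_pos _).le (sq_nonneg δ)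

end Vale.Agent.P253.H805
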