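import Vale.Agent.P253.H51.Liou

/-!
P253: four point subharmonicity at a point, a maximum principle for exponentials, and the
squared norm and the logarithm of holomorphic functions.
-/

open scoped Manifold ContDiff Topology Bundle
open Set Metric Complex Filter Vale.Agent.P253.Mfd

noncomputable section

namespace Vale.Agent.P253.H805

/-- four point subharmonicity at the point `z` -/
def FP (u : ℂ → ℝ) (z : ℂ) : Prop :=
  ∀ η > 0, ∀ᶠ r : ℝ in 𝓝[>] (0:ℝ), 4 * u z - η * r ^ 2 ≤ ∑ k : Fin 4, u (z + r • (I ^ (k:ℕ)))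

theorem tendsto_four (z : ℂ) (k : Fin 4) :
    Tendsto (fun r : ℝ => z + r • (I ^ (k:ℕ) : ℂ)) (𝓝[>] 0) (𝓝 z) := by
  have h3 : Continuous (fun r : ℝ => z + r • (I ^ (k:ℕ) : ℂ)) := by fun_prop
  have := (h3.tendsto 0).mono_left (nhdsWithin_le_nhds (s := Ioi (0:ℝ)))
  simpa using this

theorem ev_four {p : ℂ → Prop} {z : ℂ} (h : ∀ᶠ w in 𝓝 z, p w) :
    ∀ᶠ r : ℝ in 𝓝[>] (0:ℝ), ∀ k : Fin 4, p (z + r • (I ^ (k:ℕ))) :=
  eventually_all.2 fun k => (tendsto_four z k).eventually h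

theorem FP.of_le {u v : ℂ → ℝ} {z : ℂ} (hv : FP v z) (h : ∀ᶠ w in 𝓝 z, v w ≤ u w)
    (hz : u z ≤ v z) : FP u z := by
  intro η hη
  filter_upwards [hv η hη, ev_four h] with r h1 h2
  have h3 : ∑ k : Fin 4, v (z + r • (I ^ (k:ℕ))) ≤ ∑ k : Fin 4, u (z + r • (I ^ (k:ℕ))) :=
    Finset.sum_le_sum fun k _ => h2 k
  linarith

theorem FP.add {u v : ℂ → ℝ} {z : ℂ} (hu : FP u z) (hv : FP v z) :
    FP (fun w => u w + v w) z := by
  intro η hη
  filter_upwards [hu (η / 2) (by positivity), hv (η / 2) (by positivity)] with r h1 h2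
  rw [Finset.sum_add_distrib]
  nlinarith

theorem FP.const (c : ℝ) (z : ℂ) : FP (fun _ => c) z := by
  intro η hη
  filter_upwards with r
  simp only [Finset.sum_const, Finset.card_univ, Fintype.card_fin, nsmul_eq_mul]
  have : 0 ≤ η * r ^ 2 := by positivity
  push_cast
  linarith

theorem FP.smul {u : ℂ → ℝ} {z : ℂ} (hu : FP u z) {s : ℝ} (hs : 0 ≤ s) :
    FP (fun w => s * u w) z := by
  intro η hη
  filter_upwards [hu (η / (s + 1)) (by positivity)] with r h1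
  rw [← Finset.mul_sum]
  have h2 := mul_le_mul_of_nonneg_left h1 hs
  have h3 : s * (η / (s + 1)) ≤ η := by
    rw [mul_div_assoc', div_le_iff₀ (by positivity)]
    nlinarith
  have h4 := mul_le_mul_of_nonneg_right h3 (sq_nonneg r)
  nlinarith

/-- maximum principle for functions whose logarithm is four point subharmonic -/
theorem max_exp {K U : Set ℂ} (hK : IsCompact K) (hU : IsOpen U) (hUK : U ⊆ K) {P : ℂ → ℝ}
    (hc : ContinuousOn P K) (hfp : ∀ z ∈ U, 0 < P z → FP (fun w => Real.log (P w)) z) {B : ℝ}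
    (hB : ∀ z ∈ K \ U, P z ≤ B) (hB0 : 0 ≤ B) {z : ℂ} (hz : z ∈ K) : P z ≤ B := by
  by_contra hcon
  push Not at hcon
  obtain ⟨R, hR⟩ := hK.isBounded.subset_closedBall (0:ℂ)
  have hRn : ∀ w ∈ K, ‖w‖ ≤ R := fun w hw => by simpa using hR hw
  obtain ⟨δ, hδP, hδ⟩ : ∃ δ : ℝ, B * Real.exp (δ * R ^ 2) < P z ∧ 0 < δ := by
    have h1 : Tendsto (fun δ : ℝ => B * Real.exp (δ * R ^ 2)) (𝓝[>] 0) (𝓝 B) := by
      have h2 : Continuous (fun δ : ℝ => B * Real.exp (δ * R ^ 2)) := by fun_prop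
      have := (h2.tendsto 0).mono_left (nhdsWithin_le_nhds (s := Ioi (0:ℝ)))
      simpa using this
    exact ((h1.eventually (eventually_lt_nhds hcon)).and self_mem_nhdsWithin).exists
  set F : ℂ → ℝ := fun w => P w * Real.exp (δ * ‖w‖ ^ 2) with hF
  have hFc : ContinuousOn F K := hc.mul (by fun_prop)
  obtain ⟨y, hy, hmax⟩ := hK.exists_isMaxOn ⟨z, hz⟩ hFc
  have hP : 0 < P z := hB0.trans_lt hcon
  have h1 : P z ≤ F y := by
    refine le_trans ?_ (hmax hz)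
    rw [hF]
    have : 1 ≤ Real.exp (δ * ‖z‖ ^ 2) := Real.one_le_exp (by positivity)
    nlinarith
  have h2 : Real.exp (δ * ‖y‖ ^ 2) ≤ Real.exp (δ * R ^ 2) := by
    refine Real.exp_le_exp.2 ?_
    have := hRn y hy
    gcongr
  have h3 : B < P y := by
    by_contra h4
    push Not at h4
    have h5 : F y ≤ B * Real.exp (δ * R ^ 2) := by
      rw [hF]
      exact mul_le_mul h4 h2 (Real.exp_pos _).le hB0
    linarith
  have hyU : y ∈ U := by
    by_contra h4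
    exact absurd (hB y ⟨hy, h4⟩) (not_le.2 h3)
  have hPy : 0 < P y := hB0.trans_lt h3
  have hcy : ContinuousAt P y := (hc.mono hUK).continuousAt (hU.mem_nhds hyU)
  have e0 : ∀ᶠ w in 𝓝 y, w ∈ U := hU.mem_nhds hyU
  have e1 : ∀ᶠ w in 𝓝 y, w ∈ U ∧ 0 < P w := e0.and (hcy.eventually (lt_mem_nhds hPy))
  obtain ⟨r, ⟨h4, h5⟩, h6⟩ := (((hfp y hyU hPy δ hδ).and (ev_four e1)).and
    self_mem_nhdsWithin).exists
  have hr : (0:ℝ) < r := h6
  have h7 : ∀ k : Fin 4, Real.log (P (y + r • (I ^ (k:ℕ)))) +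
      δ * ‖y + r • (I ^ (k:ℕ))‖ ^ 2 ≤ Real.log (P y) + δ * ‖y‖ ^ 2 := by
    intro k
    have h8 : F (y + r • (I ^ (k:ℕ))) ≤ F y := hmax (hUK (h5 k).1)
    have h9 := Real.log_le_log (by rw [hF]; have := (h5 k).2; positivity) h8
    rw [hF] at h9
    simp only at h9
    rw [Real.log_mul (h5 k).2.ne' (Real.exp_pos _).ne', Real.log_exp,
      Real.log_mul hPy.ne' (Real.exp_pos _).ne', Real.log_exp] at h9
    exact h9
  have h8 := Finset.sum_le_sum fun k (_ : k ∈ (Finset.univ : Finset (Fin 4))) => h7 k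
  rw [Finset.sum_add_distrib, ← Finset.mul_sum, H51.four_sq] at h8
  simp only [Finset.sum_const, Finset.card_univ, Fintype.card_fin, nsmul_eq_mul] at h8
  push_cast at h8
  have h9 : 0 < δ * r ^ 2 := by positivity
  linarith

theorem sum_I_pow : ∑ k : Fin 4, (I ^ (k:ℕ) : ℂ) = 0 := by
  have h3 : (I : ℂ) ^ 3 = -I := by rw [pow_succ, I_sq]; ring
  simp only [Fin.sum_univ_four, Fin.val_zero, Fin.val_one, Fin.val_two, pow_zero, pow_one,
    I_sq, show ((3 : Fin 4) : ℕ) = 3 from rfl, h3]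
  ring

section

variable {F : Type*} [NormedAddCommGroup F] [NormedSpace ℂ F] [FiniteDimensional ℂ F]

/-- second order expansion along the four points -/
theorem small_four {V : Set ℂ} (hV : IsOpen V) {W : ℂ → F} (hW : DifferentiableOn ℂ W V) {z : ℂ}
    (hz : z ∈ V) :
    IsSmall (fun r k => W (z + r • (I ^ (k:ℕ))) - W z - r • (I ^ (k:ℕ) • fderiv ℝ W z 1)) := by
  have h1 := isSmall_map hV hW hz (1:ℂ) (isSmall_zero (E := ℂ))
  refine h1.congr (Eventually.of_forall fun r k => ?_)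
  simp only [smul_eq_mul, mul_one, add_zero]

end

/-- the logarithm of the modulus of a nonvanishing holomorphic function -/
theorem FP.log_norm {B : ℂ → ℂ} {z : ℂ} (hB : ∀ᶠ w in 𝓝 z, DifferentiableAt ℂ B w)
    (h0 : B z ≠ 0) : FP (fun w => Real.log ‖B w‖) z := by
  have hBc : ContinuousAt B z := (hB.self_of_nhds).continuousAt
  have hq : ContinuousAt (fun w => B w / B z) z := hBc.div_const _
  have hsl : ∀ᶠ w in 𝓝 z, B w / B z ∈ slitPlane := by
    refine hq.eventually (isOpen_slitPlane.mem_nhds ?_)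
    simp only [div_self h0]
    exact one_mem_slitPlane
  have hev : ∀ᶠ w in 𝓝 z, DifferentiableAt ℂ (fun w => Complex.log (B w / B z)) w := by
    filter_upwards [hB, hsl] with w h1 h2
    exact (h1.div_const _).clog h2
  obtain ⟨V, hVs, hVo, hzV⟩ := _root_.eventually_nhds_iff.1 hev
  have h1 := small_four hVo (W := fun w => Complex.log (B w / B z))
    (fun w hw => (hVs w hw).differentiableWithinAt) hzV
  have hne : ∀ᶠ w in 𝓝 z, B w ≠ 0 := hBc.eventually_ne h0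
  intro η hη
  filter_upwards [h1.2 η hη, ev_four hne] with r h2 h3
  have h4 : ∑ k : Fin 4, (Complex.log (B (z + r • (I ^ (k:ℕ))) / B z) -
      Complex.log (B z / B z) - r • (I ^ (k:ℕ) •
        fderiv ℝ (fun w => Complex.log (B w / B z)) z 1)) =
      ∑ k : Fin 4, Complex.log (B (z + r • (I ^ (k:ℕ))) / B z) := by
    rw [Finset.sum_sub_distrib, Finset.sum_sub_distrib, ← Finset.smul_sum, ← Finset.sum_smul,
      sum_I_pow, div_self h0, Complex.log_one]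
    simp
  rw [h4] at h2
  have h5 := (Complex.abs_re_le_norm _).trans h2
  rw [Complex.re_sum] at h5
  have h6 : ∀ k : Fin 4, (Complex.log (B (z + r • (I ^ (k:ℕ))) / B z)).re =
      Real.log ‖B (z + r • (I ^ (k:ℕ)))‖ - Real.log ‖B z‖ := by
    intro k
    rw [Complex.log_re, norm_div, Real.log_div (norm_ne_zero_iff.2 (h3 k))
      (norm_ne_zero_iff.2 h0)]
  simp only [h6, Finset.sum_sub_distrib, Finset.sum_const, Finset.card_univ, Fintype.card_fin,
    nsmul_eq_mul] at h5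
  have h7 := (abs_le.1 h5).1
  push_cast at h7
  linarith

theorem FP.neg_log_norm {z : ℂ} (h0 : z ≠ 0) : FP (fun w : ℂ => -Real.log ‖w‖) z := by
  have h1 : FP (fun w : ℂ => Real.log ‖w⁻¹‖) z := by
    refine FP.log_norm (B := fun w => w⁻¹) ?_ (inv_ne_zero h0)
    filter_upwards [isOpen_ne.mem_nhds h0] with w hw
    exact differentiableAt_inv hw
  simpa [norm_inv, Real.log_inv] using h1

section

variable {F : Type*} [NormedAddCommGroup F] [InnerProductSpace ℂ F] [FiniteDimensional ℂ F]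

/-- four point sums of the squared norm of a holomorphic map -/
theorem four_normSq {V : Set ℂ} (hV : IsOpen V) {W : ℂ → F} (hW : DifferentiableOn ℂ W V) {z : ℂ}
    (hz : z ∈ V) {η : ℝ} (hη : 0 < η) : ∀ᶠ r : ℝ in 𝓝[>] (0:ℝ),
      ∑ k : Fin 4, ‖W (z + r • (I ^ (k:ℕ)))‖ ^ 2 ≤
        4 * ‖W z‖ ^ 2 + (4 * ‖fderiv ℝ W z 1‖ ^ 2 + η) * r ^ 2 := by
  obtain ⟨⟨C, hC⟩, hs⟩ := small_four hV hW hz
  set Y : F := fderiv ℝ W z 1 with hY
  set w₀ : F := W z with hw₀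
  set τ : ℝ := η / (4 * (‖w₀‖ + 1)) with hτ
  have hτ0 : 0 < τ := by positivity
  have hC0 : ∀ᶠ r : ℝ in 𝓝[>] (0:ℝ), (8 * |C| * r * ‖Y‖ + 4 * C ^ 2 * r ^ 2) < η / 2 := by
    have h1 : Tendsto (fun r : ℝ => 8 * |C| * r * ‖Y‖ + 4 * C ^ 2 * r ^ 2) (𝓝[>] 0) (𝓝 0) := by
      have h2 : Continuous (fun r : ℝ => 8 * |C| * r * ‖Y‖ + 4 * C ^ 2 * r ^ 2) := by fun_prop
      have := (h2.tendsto 0).mono_left (nhdsWithin_le_nhds (s := Ioi (0:ℝ)))
      simpa using this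
    exact h1.eventually (eventually_lt_nhds (by positivity))
  filter_upwards [hC, hs τ hτ0, hC0, self_mem_nhdsWithin] with r h1 h2 h3 h4
  have hr : (0:ℝ) < r := h4
  set a : Fin 4 → F := fun k => W (z + r • (I ^ (k:ℕ))) - w₀ with ha
  have h5 : ∑ k : Fin 4, a k = ∑ k : Fin 4,
      (W (z + r • (I ^ (k:ℕ))) - w₀ - r • (I ^ (k:ℕ) • Y)) := by
    rw [Finset.sum_sub_distrib (f := fun k : Fin 4 => W (z + r • (I ^ (k:ℕ))) - w₀),
      ← Finset.smul_sum, ← Finset.sum_smul, sum_I_pow]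
    simp [ha]
  have h6 : ‖∑ k : Fin 4, a k‖ ≤ τ * r ^ 2 := by rw [h5]; exact h2
  have h7 : ∀ k : Fin 4, ‖a k‖ ≤ r * ‖Y‖ + |C| * r ^ 2 := by
    intro k
    have e1 : a k = r • (I ^ (k:ℕ) • Y) + (W (z + r • (I ^ (k:ℕ))) - w₀ - r • (I ^ (k:ℕ) • Y)) := by
      simp only [ha]; abel
    rw [e1]
    refine (norm_add_le _ _).trans (add_le_add ?_ ?_)
    · rw [norm_smul, norm_smul, norm_pow, norm_I, one_pow, one_mul, Real.norm_of_nonneg hr.le]
    · exact (h1 k).trans (mul_le_mul_of_nonneg_right (le_abs_self C) (sq_nonneg r))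
  have h8 : ∀ k : Fin 4, ‖W (z + r • (I ^ (k:ℕ)))‖ ^ 2 =
      ‖w₀‖ ^ 2 + 2 * (inner ℂ w₀ (a k)).re + ‖a k‖ ^ 2 := by
    intro k
    have e1 : W (z + r • (I ^ (k:ℕ))) = w₀ + a k := by simp only [ha]; abel
    rw [e1]
    exact norm_add_sq (𝕜 := ℂ) w₀ (a k)
  have h9 : ∑ k : Fin 4, ‖W (z + r • (I ^ (k:ℕ)))‖ ^ 2 =
      4 * ‖w₀‖ ^ 2 + 2 * (inner ℂ w₀ (∑ k : Fin 4, a k)).re + ∑ k : Fin 4, ‖a k‖ ^ 2 := by
    rw [inner_sum, Complex.re_sum, Finset.mul_sum, Finset.sum_congr rfl fun k _ => h8 k,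
      Finset.sum_add_distrib, Finset.sum_add_distrib]
    simp
  have h10 : (inner ℂ w₀ (∑ k : Fin 4, a k)).re ≤ ‖w₀‖ * (τ * r ^ 2) :=
    (re_le_norm _).trans ((norm_inner_le_norm _ _).trans
      (mul_le_mul_of_nonneg_left h6 (norm_nonneg _)))
  have h11 : ‖w₀‖ * τ ≤ η / 4 := by
    rw [hτ, mul_div_assoc', div_le_div_iff₀ (by positivity) (by norm_num)]
    nlinarith [norm_nonneg w₀]
  have h12 : ∑ k : Fin 4, ‖a k‖ ^ 2 ≤ 4 * (r * ‖Y‖ + |C| * r ^ 2) ^ 2 := by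
    refine (Finset.sum_le_sum fun k _ => pow_le_pow_left₀ (norm_nonneg _) (h7 k) 2).trans ?_
    simp
  rw [h9]
  have h13 : 4 * (r * ‖Y‖ + |C| * r ^ 2) ^ 2 =
      4 * ‖Y‖ ^ 2 * r ^ 2 + (8 * |C| * r * ‖Y‖ + 4 * C ^ 2 * r ^ 2) * r ^ 2 := by
    rw [← sq_abs C]; ring
  have h14 := mul_le_mul_of_nonneg_right h3.le (sq_nonneg r)
  have h15 := mul_le_mul_of_nonneg_right h11 (sq_nonneg r)
  nlinarith

end

end Vale.Agent.P253.H805
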