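import Vale.Agent.P253.H805.Kill
import Vale.Agent.P253.H502.Nonexp

/-!
P253: holomorphic actions of `ℂ` whose real times preserve distances are smooth flows of
isometries of the Kähler metric.
-/

open scoped Manifold ContDiff Topology Bundle
open Set Metric Complex Filter Bundle IsManifold Manifold Vale.Agent.P253.Mfd
  Vale.Agent.P253.H595 Vale.Agent.P253.R2

set_option maxSynthPendingDepth 3
set_option linter.unusedSectionVars false

noncomputable section

namespace Vale.Agent.P253.H805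

variable {E : Type*} [NormedAddCommGroup E] [NormedSpace ℂ E] [FiniteDimensional ℂ E]
  {M : Type*} [MetricSpace M] [ChartedSpace E M]
  [IsManifold 𝓘(ℂ, E) 1 M] [IsManifold 𝓘(ℝ, E) ∞ M]

/-- a holomorphic action of `ℂ` is smooth -/
theorem smooth_of_cflow {ψ : ℂ → M → M} (hψ : IsHolCFlow E ψ) :
    ContMDiff (𝓘(ℝ, ℝ).prod 𝓘(ℝ, E)) 𝓘(ℝ, E) ∞ (fun q : ℝ × M => ψ q.1 q.2) := by
  have hCE : CompleteSpace E := FiniteDimensional.complete ℂ E
  rintro ⟨t, x⟩
  rw [contMDiffAt_iff]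
  have hc : Continuous (fun q : ℝ × M => ψ q.1 q.2) := by
    have h1 : Continuous (fun q : ℝ × M => ((q.1 : ℂ), q.2)) := by fun_prop
    exact hψ.holo.continuous.comp h1
  refine ⟨hc.continuousAt, ?_⟩
  set e := chartAt E x with he
  set e' := chartAt E (ψ t x) with he'
  have hem : e ∈ maximalAtlas 𝓘(ℂ, E) 1 M := chart_mem_maximalAtlas x
  have hem' : e' ∈ maximalAtlas 𝓘(ℂ, E) 1 M := chart_mem_maximalAtlas (ψ t x)
  set Ω : Set (ℂ × E) := {u : ℂ × E | u.2 ∈ e.target} ∩
    (fun u : ℂ × E => ψ u.1 (e.symm u.2)) ⁻¹' e'.source with hΩ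
  have h1 : ContinuousOn (fun u : ℂ × E => (u.1, e.symm u.2)) {u | u.2 ∈ e.target} :=
    continuousOn_fst.prodMk (e.continuousOn_symm.comp continuousOn_snd fun u hu => hu)
  have hΩo : IsOpen Ω :=
    (hψ.holo.continuous.comp_continuousOn h1).isOpen_inter_preimage
      (e.open_target.preimage continuous_snd) e'.open_source
  have hd : DifferentiableOn ℂ (fun u : ℂ × E => e' (ψ u.1 (e.symm u.2))) Ω := by
    intro u hu
    have h3 : MDifferentiableAt 𝓘(ℂ, ℂ × E) (𝓘(ℂ, ℂ).prod 𝓘(ℂ, E))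
        (fun u : ℂ × E => (u.1, e.symm u.2)) u := by
      refine MDifferentiableAt.prodMk differentiableAt_fst.mdifferentiableAt ?_
      exact MDifferentiableAt.comp u (g := e.symm) (f := Prod.snd)
        (mdiff_chart_symm hem hu.1) differentiableAt_snd.mdifferentiableAt
    have h4 : MDifferentiableAt 𝓘(ℂ, ℂ × E) 𝓘(ℂ, E)
        (fun u : ℂ × E => e' (ψ u.1 (e.symm u.2))) u :=
      MDifferentiableAt.comp u (g := e') (f := fun u : ℂ × E => ψ u.1 (e.symm u.2))
        (mdiff_chart hem' hu.2)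
        (MDifferentiableAt.comp u (g := fun q : ℂ × M => ψ q.1 q.2)
          (f := fun u : ℂ × E => (u.1, e.symm u.2))
          ((hψ.holo (u.1, e.symm u.2)).mdifferentiableAt (by simp)) h3)
    exact h4.differentiableAt.differentiableWithinAt
  have hmem : (((t:ℝ):ℂ), e x) ∈ Ω := by
    refine ⟨e.map_source (mem_chart_source E x), ?_⟩
    simp only [mem_preimage]
    rw [e.left_inv (mem_chart_source E x)]
    exact mem_chart_source E (ψ t x)
  have h2 : ContDiffAt ℝ ∞ (fun u : ℂ × E => e' (ψ u.1 (e.symm u.2))) (((t:ℝ):ℂ), e x) :=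
    ((contDiffOn_of_differentiableOn_complex hΩo hd).restrict_scalars ℝ).contDiffAt
      (hΩo.mem_nhds hmem)
  have h3 : ContDiffAt ℝ ∞ (fun q : ℝ × E => ((q.1:ℂ), q.2)) (t, e x) := by
    have h5 : ContDiff ℝ ∞ (fun q : ℝ × E => ((q.1:ℂ), q.2)) :=
      (ofRealCLM.contDiff.comp contDiff_fst).prodMk contDiff_snd
    exact h5.contDiffAt
  have h4 : ContDiffAt ℝ ∞ (fun q : ℝ × E => e' (ψ (q.1:ℂ) (e.symm q.2))) (t, e x) :=
    ContDiffAt.comp (t, e x) (g := fun u : ℂ × E => e' (ψ u.1 (e.symm u.2))) h2 h3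
  simp only [extChartAt, mfld_simps]
  exact h4.contDiffWithinAt

variable [RiemannianBundle (fun x : M => TangentSpace 𝓘(ℝ, E) x)]
  [IsContMDiffRiemannianBundle 𝓘(ℝ, E) ∞ E (fun x : M => TangentSpace 𝓘(ℝ, E) x)]
  [IsRiemannianManifold 𝓘(ℝ, E) M]

/-- the differential of a holomorphic map which does not decrease distances does not decrease
lengths -/
theorem innerAt_le_of_expand (hK : IsKahler E M) {f : M → M}
    (hf : MDifferentiable 𝓘(ℂ, E) 𝓘(ℂ, E) f) (hd : ∀ x y, dist x y ≤ dist (f x) (f y)) (x : M)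
    (w : E) : innerAt (E := E) x w w ≤
      innerAt (E := E) (f x) (H502.dM (E := E) f x w) (H502.dM (E := E) f x w) := by
  have he : chartAt E x ∈ maximalAtlas 𝓘(ℂ, E) 1 M := chart_mem_maximalAtlas x
  have he' : chartAt E (f x) ∈ maximalAtlas 𝓘(ℂ, E) 1 M := chart_mem_maximalAtlas (f x)
  set e := chartAt E x with hedef
  set e' := chartAt E (f x) with hedef'
  have her := mem_maximalAtlas_real he
  have her' := mem_maximalAtlas_real he'
  have hx : x ∈ e.source := mem_chart_source E x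
  have hfx : f x ∈ e'.source := mem_chart_source E (f x)
  have hsm := H502.contMDiff_real hf
  have hxx : e.symm (e x) = x := e.left_inv hx
  have h1 : HasMFDerivAt 𝓘(ℝ, E) 𝓘(ℝ, E) e.symm (e x)
      (mfderiv 𝓘(ℝ, E) 𝓘(ℝ, E) e.symm (e x)) :=
    (((contMDiffOn_symm_of_mem_maximalAtlas her).contMDiffAt
      (e.open_target.mem_nhds (e.map_source hx))).mdifferentiableAt (by simp)).hasMFDerivAt
  have h2 : HasMFDerivAt 𝓘(ℝ, E) 𝓘(ℝ, E) f (e.symm (e x))
      (mfderiv 𝓘(ℝ, E) 𝓘(ℝ, E) f (e.symm (e x))) :=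
    ((hsm _).mdifferentiableAt (by simp)).hasMFDerivAt
  have h3 : HasMFDerivAt 𝓘(ℝ, E) 𝓘(ℝ, E) e' (f (e.symm (e x)))
      (mfderiv 𝓘(ℝ, E) 𝓘(ℝ, E) e' (f (e.symm (e x)))) :=
    (((contMDiffOn_of_mem_maximalAtlas her').contMDiffAt
      (e'.open_source.mem_nhds (by rw [hxx]; exact hfx))).mdifferentiableAt (by simp)).hasMFDerivAt
  let L : E →L[ℝ] E := (dchart e' (f (e.symm (e x)))).comp
    ((H502.dM (E := E) f (e.symm (e x))).comp (dsymm e (e x)))
  have h4 : HasMFDerivAt 𝓘(ℝ, E) 𝓘(ℝ, E) (fun z => e' (f (e.symm z))) (e x) L :=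
    HasMFDerivAt.comp (e x) (g := e') (f := fun z => f (e.symm z)) h3
      (HasMFDerivAt.comp (e x) (g := f) (f := e.symm) h2 h1)
  have h5 := length_le_of_expand hK he he' hx hfx (hasMFDerivAt_iff_hasFDerivAt.1 h4)
    hf.continuous.continuousAt (Eventually.of_forall fun y => hd x y) (dchart e x w)
  have h6 : (dsymm e (e x)).comp (dchart e x) = ContinuousLinearMap.id ℝ E :=
    (mdifferentiable_chart her).symm_comp_deriv hx
  have h7 : dsymm e (e x) (dchart e x w) = w := congrArg (fun T : E →L[ℝ] E => T w) h6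
  have h8 : L (dchart e x w) = dchart e' (f x) (H502.dM (E := E) f x w) := by
    change dchart e' (f (e.symm (e x))) (H502.dM (E := E) f (e.symm (e x))
      (dsymm e (e x) (dchart e x w))) = _
    rw [h7, hxx]
  rw [h8, H502.innerAt_chart he hx, H502.innerAt_chart he' hfx] at h5
  exact h5

theorem innerAt_eq_of_inv (hK : IsKahler E M) {f g : M → M}
    (hf : MDifferentiable 𝓘(ℂ, E) 𝓘(ℂ, E) f) (hfd : ∀ x y, dist (f x) (f y) = dist x y)
    (hg : MDifferentiable 𝓘(ℂ, E) 𝓘(ℂ, E) g) (hgd : ∀ x y, dist (g x) (g y) = dist x y)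
    (hgf : ∀ x, g (f x) = x) (x : M) (w : E) :
    innerAt (E := E) (f x) (H502.dM (E := E) f x w) (H502.dM (E := E) f x w) =
      innerAt (E := E) x w w := by
  refine le_antisymm ?_ (innerAt_le_of_expand hK hf (fun x y => (hfd x y).ge) x w)
  have h1 := innerAt_le_of_expand hK hg (fun x y => (hgd x y).ge) (f x)
    (H502.dM (E := E) f x w)
  have h2 : g ∘ f = id := funext hgf
  have h3 := H502.dM_comp (H502.contMDiff_real hf) (H502.contMDiff_real hg) x w
  rw [h2, H502.dM_id] at h3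
  rw [← h3, hgf] at h1
  exact h1

/-- the real times of a holomorphic action of `ℂ` which preserve distances are a flow of
holomorphic isometries -/
theorem isomFlow_of_cflow (hK : IsKahler E M) {ψ : ℂ → M → M} (hψ : IsHolCFlow E ψ)
    (hd : ∀ (t : ℝ) x y, dist (ψ t x) (ψ t y) = dist x y) :
    IsHolIsomFlow E (fun (t : ℝ) x => ψ t x) where
  zero x := by simp only [ofReal_zero, hψ.zero]
  add s t x := by simp only [ofReal_add, hψ.add]
  smooth := smooth_of_cflow hψ
  holo t := by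
    have h2 : ContMDiff 𝓘(ℂ, E) 𝓘(ℂ, E) 1 (fun x => ψ t x) :=
      hψ.holo.comp (contMDiff_const.prodMk contMDiff_id)
    exact h2.mdifferentiable (by simp)
  isom t x v w := by
    have hh : ∀ t : ℝ, MDifferentiable 𝓘(ℂ, E) 𝓘(ℂ, E) (fun x => ψ t x) := by
      intro t
      have h2 : ContMDiff 𝓘(ℂ, E) 𝓘(ℂ, E) 1 (fun x => ψ t x) :=
        hψ.holo.comp (contMDiff_const.prodMk contMDiff_id)
      exact h2.mdifferentiable (by simp)
    have hinv : ∀ x, ψ ((-t : ℝ) : ℂ) (ψ t x) = x := by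
      intro x
      rw [← hψ.add, ← ofReal_add, neg_add_cancel, ofReal_zero, hψ.zero]
    have key : ∀ u : TangentSpace 𝓘(ℝ, E) x,
        inner ℝ (mfderiv 𝓘(ℝ, E) 𝓘(ℝ, E) (fun x => ψ t x) x u)
          (mfderiv 𝓘(ℝ, E) 𝓘(ℝ, E) (fun x => ψ t x) x u) = inner ℝ u u := fun u =>
      innerAt_eq_of_inv hK (hh t) (hd t) (hh (-t)) (hd (-t)) hinv x u
    have h1 := key (v + w)
    rw [map_add, real_inner_add_add_self, real_inner_add_add_self, key v, key w] at h1
    linarith

end Vale.Agent.P253.H805
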