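import Vale.Agent.P253.H805.Fp

/-!
P253: Sibony's estimate for holomorphic discs in a region where the distance to a far point is
strictly superharmonic, and its consequence: if the value of the distance at one point of the disc
is close to its minimum, then this point is close to the centre.
-/

open scoped Manifold ContDiff Topology Bundle
open Set Metric Complex Filter Bundle IsManifold Manifold Vale.Agent.P253.Mfd

set_option maxSynthPendingDepth 3
set_option linter.unusedSectionVars false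

noncomputable section

namespace Vale.Agent.P253.H805

variable {E : Type*} [NormedAddCommGroup E] [NormedSpace ℂ E] [FiniteDimensional ℂ E]
  {M : Type*} [MetricSpace M] [ChartedSpace E M]
  {F : Type*} [NormedAddCommGroup F] [InnerProductSpace ℂ F] [FiniteDimensional ℂ F]

open Classical in
/-- the truncated squared distance to a point in a chart -/
def th (e : OpenPartialHomeomorph M E) (ψ : E ≃L[ℂ] F) (w₀ : E) (ρ : ℝ) (x : M) : ℝ :=
  if x ∈ e.source then min (‖ψ (e x - w₀)‖ ^ 2 / ρ ^ 2) 1 else 1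

section th

variable {e : OpenPartialHomeomorph M E} {ψ : E ≃L[ℂ] F} {w₀ : E} {ρ : ℝ}

theorem th_of_mem {x : M} (hx : x ∈ e.source) :
    th e ψ w₀ ρ x = min (‖ψ (e x - w₀)‖ ^ 2 / ρ ^ 2) 1 := if_pos hx

theorem th_of_notMem {x : M} (hx : x ∉ e.source) : th e ψ w₀ ρ x = 1 := if_neg hx

theorem th_nonneg (x : M) : 0 ≤ th e ψ w₀ ρ x := by
  unfold th
  split_ifs
  · exact le_min (by positivity) zero_le_one
  · exact zero_le_one

theorem th_le_one (x : M) : th e ψ w₀ ρ x ≤ 1 := by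
  unfold th
  split_ifs
  · exact min_le_right _ _
  · exact le_rfl

/-- the closed chart ball -/
def cb (ψ : E ≃L[ℂ] F) (w₀ : E) (ρ : ℝ) : Set E := {y | ‖ψ (y - w₀)‖ ≤ ρ}

theorem isCompact_cb : IsCompact (cb ψ w₀ ρ) := by
  have hP : ProperSpace F := FiniteDimensional.proper ℂ F
  have h1 : cb ψ w₀ ρ = (fun v : F => w₀ + ψ.symm v) '' closedBall 0 ρ := by
    ext y
    simp only [cb, mem_ofPred_eq, mem_image, mem_closedBall_zero_iff]
    constructor
    · intro h
      exact ⟨ψ (y - w₀), h, by simp⟩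
    · rintro ⟨v, hv, rfl⟩
      simpa using hv
  rw [h1]
  exact (isCompact_closedBall (0:F) ρ).image (by fun_prop)

/-- the closed chart ball in the manifold -/
def db (e : OpenPartialHomeomorph M E) (ψ : E ≃L[ℂ] F) (w₀ : E) (ρ : ℝ) : Set M :=
  {x | x ∈ e.source ∧ ‖ψ (e x - w₀)‖ ≤ ρ}

theorem isClosed_db (htgt : cb ψ w₀ ρ ⊆ e.target) : IsClosed (db e ψ w₀ ρ) := by
  have h1 : db e ψ w₀ ρ = e.symm '' cb ψ w₀ ρ := by
    ext x
    simp only [db, cb, mem_ofPred_eq, mem_image]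
    constructor
    · rintro ⟨h1, h2⟩
      exact ⟨e x, h2, e.left_inv h1⟩
    · rintro ⟨y, hy, rfl⟩
      have := htgt hy
      exact ⟨e.map_target this, by rw [e.right_inv this]; exact hy⟩
  rw [h1]
  exact (isCompact_cb.image_of_continuousOn (e.continuousOn_symm.mono htgt)).isClosed

theorem th_of_notMem_db (hρ : 0 < ρ) {x : M} (hx : x ∉ db e ψ w₀ ρ) : th e ψ w₀ ρ x = 1 := by
  by_cases h : x ∈ e.source
  · rw [th_of_mem h]
    refine min_eq_right ?_
    rw [one_le_div (by positivity)]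
    refine pow_le_pow_left₀ hρ.le ?_ 2
    by_contra h2
    push Not at h2
    exact hx ⟨h, h2.le⟩
  · exact th_of_notMem h

theorem continuous_th (hρ : 0 < ρ) (htgt : cb ψ w₀ ρ ⊆ e.target) :
    Continuous (th e ψ w₀ ρ : M → ℝ) := by
  rw [continuous_iff_continuousAt]
  intro x
  by_cases h : x ∈ e.source
  · have h1 : ContinuousAt (fun x : M => min (‖ψ (e x - w₀)‖ ^ 2 / ρ ^ 2) 1) x := by
      have h2 : ContinuousAt e x := e.continuousAt h
      have h3 : ContinuousAt (fun x : M => ‖ψ (e x - w₀)‖ ^ 2 / ρ ^ 2) x :=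
        ((ψ.continuous.continuousAt.comp (h2.sub continuousAt_const)).norm.pow 2).div_const _
      exact Filter.Tendsto.min h3 continuousAt_const
    refine h1.congr ?_
    filter_upwards [e.open_source.mem_nhds h] with y hy
    exact (th_of_mem hy).symm
  · have h1 : x ∉ db e ψ w₀ ρ := fun h2 => h h2.1
    have h2 : ContinuousAt (fun _ : M => (1:ℝ)) x := continuousAt_const
    refine h2.congr ?_
    filter_upwards [(isClosed_db htgt).isOpen_compl.mem_nhds h1] with y hy
    exact (th_of_notMem_db hρ hy).symm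

end th

theorem log_min_ge {x : ℝ} (hx : 0 < x) : Real.log x - x ≤ Real.log (min x 1) - min x 1 := by
  rcases le_total x 1 with h | h
  · rw [min_eq_left h]
  · rw [min_eq_right h, Real.log_one]
    have := Real.log_le_sub_one_of_pos hx
    linarith

variable [IsManifold 𝓘(ℂ, E) 1 M] [IsManifold 𝓘(ℝ, E) ∞ M]
  [RiemannianBundle (fun x : M => TangentSpace 𝓘(ℝ, E) x)]
  [IsContMDiffRiemannianBundle 𝓘(ℝ, E) ∞ E (fun x : M => TangentSpace 𝓘(ℝ, E) x)]
  [IsRiemannianManifold 𝓘(ℝ, E) M]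

theorem differentiableAt_comp {g : ℂ → M} {z : ℂ} (hg : MDifferentiableAt 𝓘(ℂ, ℂ) 𝓘(ℂ, E) g z)
    {e : OpenPartialHomeomorph M E} (he : e ∈ maximalAtlas 𝓘(ℂ, E) 1 M) (hz : g z ∈ e.source) :
    DifferentiableAt ℂ (fun z => e (g z)) z := by
  have h1 : MDifferentiableAt 𝓘(ℂ, E) 𝓘(ℂ, E) e (g z) :=
    ((contMDiffOn_of_mem_maximalAtlas he).contMDiffAt
      (e.open_source.mem_nhds hz)).mdifferentiableAt (by simp)
  exact (h1.comp z hg).differentiableAt

/-- subharmonicity of minus the distance along a disc -/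
theorem fp_dist (hK : IsKahler E M) {g : ℂ → M} {U : Set ℂ} (hU : IsOpen U)
    (hg : MDifferentiableOn 𝓘(ℂ, ℂ) 𝓘(ℂ, E) g U) {z : ℂ} (hz : z ∈ U) {q : M} {c : ℝ} (hc : 0 < c)
    (hlev : LeviBound (E := E) q (g z) (-c)) : FP (fun w => -dist (g w) q) z := by
  intro η hη
  have he : chartAt E (g z) ∈ maximalAtlas 𝓘(ℂ, E) 1 M := chart_mem_maximalAtlas _
  filter_upwards [H51.four_dist hU hg hz he (mem_chart_source E (g z)) hlev hη] with r hr
  refine le_trans ?_ hr
  have h1 := R2.H618.G_nonneg (localKahler_chartG hK he) ((chartAt E (g z)).map_source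
    (mem_chart_source E (g z))) (fderiv ℝ (fun w => (chartAt E (g z)) (g w)) z 1)
  have h2 : 0 ≤ c * chartG (chartAt E (g z)) ((chartAt E (g z)) (g z))
    (fderiv ℝ (fun w => (chartAt E (g z)) (g w)) z 1)
    (fderiv ℝ (fun w => (chartAt E (g z)) (g w)) z 1) * r ^ 2 := by positivity
  nlinarith

/-- Sibony's function is four point subharmonic away from the pole -/
theorem fp_main (hK : IsKahler E M) {e : OpenPartialHomeomorph M E}
    (he : e ∈ maximalAtlas 𝓘(ℂ, E) 1 M) {ψ : E ≃L[ℂ] F} {w₀ : E} {ρ : ℝ} (hρ : 0 < ρ)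
    (htgt : cb ψ w₀ ρ ⊆ e.target) {m c lam : ℝ}
    (hm : ∀ y ∈ cb ψ w₀ ρ, ∀ Y, ‖ψ Y‖ ^ 2 ≤ m * chartG e y Y Y) (hc : 0 < c) (hlam0 : 0 ≤ lam)
    (hlam : lam * c = 4 * m / ρ ^ 2) {q : M} {g : ℂ → M} {U : Set ℂ} (hU : IsOpen U)
    (hg : MDifferentiableOn 𝓘(ℂ, ℂ) 𝓘(ℂ, E) g U) {z : ℂ} (hz : z ∈ U)
    (hlev : LeviBound (E := E) q (g z) (-c)) (hz0 : z ≠ 0)
    (hth : 0 < th e ψ w₀ ρ (g z)) {s : ℝ} (hs : 0 ≤ s) :
    FP (fun w => Real.log (th e ψ w₀ ρ (g w) *
      Real.exp (-th e ψ w₀ ρ (g w) - lam * dist (g w) q - s * Real.log ‖w‖))) z := by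
  have hgc : ContinuousAt g z := (hg.continuousOn).continuousAt (hU.mem_nhds hz)
  have hTc : ContinuousAt (fun w => th e ψ w₀ ρ (g w)) z :=
    (continuous_th hρ htgt).continuousAt.comp hgc
  have hpos : ∀ᶠ w in 𝓝 z, 0 < th e ψ w₀ ρ (g w) := hTc.eventually (lt_mem_nhds hth)
  have hlogT : ∀ w, 0 < th e ψ w₀ ρ (g w) → Real.log (th e ψ w₀ ρ (g w) *
      Real.exp (-th e ψ w₀ ρ (g w) - lam * dist (g w) q - s * Real.log ‖w‖)) =
      Real.log (th e ψ w₀ ρ (g w)) - th e ψ w₀ ρ (g w) - lam * dist (g w) q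
        - s * Real.log ‖w‖ := by
    intro w hw
    rw [Real.log_mul hw.ne' (Real.exp_pos _).ne', Real.log_exp]
    ring
  have hl : FP (fun w : ℂ => s * -Real.log ‖w‖) z := (FP.neg_log_norm hz0).smul hs
  by_cases hD : g z ∈ db e ψ w₀ ρ
  · -- inside the closed chart ball
    obtain ⟨hzs, hzρ⟩ := hD
    set W : ℂ → F := fun w => ψ (e (g w) - w₀) with hW
    set V : Set ℂ := U ∩ g ⁻¹' e.source with hV
    have hVo : IsOpen V := hg.continuousOn.isOpen_inter_preimage hU e.open_source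
    have hzV : z ∈ V := ⟨hz, hzs⟩
    have hed : ∀ w ∈ V, DifferentiableAt ℂ (fun w => e (g w)) w := fun w hw =>
      differentiableAt_comp ((hg w hw.1).mdifferentiableAt (hU.mem_nhds hw.1)) he hw.2
    have hWd : ∀ w ∈ V, DifferentiableAt ℂ W w := fun w hw =>
      ψ.differentiableAt.comp w ((hed w hw).sub_const _)
    have hWon : DifferentiableOn ℂ W V := fun w hw => (hWd w hw).differentiableWithinAt
    have hTz : th e ψ w₀ ρ (g z) = ‖W z‖ ^ 2 / ρ ^ 2 := by
      rw [th_of_mem hzs]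
      refine min_eq_left ?_
      rw [div_le_one (by positivity)]
      exact pow_le_pow_left₀ (norm_nonneg _) hzρ 2
    have hWz : W z ≠ 0 := by
      intro h0
      rw [hTz, h0, norm_zero] at hth
      simp at hth
    have hWzn : 0 < ‖W z‖ := norm_pos_iff.2 hWz
    set B : ℂ → ℂ := fun w => inner ℂ (W z) (W w) with hB
    have hBd : ∀ w ∈ V, DifferentiableAt ℂ B w := fun w hw =>
      (innerSL ℂ (W z)).differentiableAt.comp w (hWd w hw)
    have hBz : ‖B z‖ = ‖W z‖ ^ 2 := by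
      rw [hB]
      simp only
      rw [inner_self_eq_norm_sq_to_K, norm_pow]
      simp
    have hBz0 : B z ≠ 0 := by
      rw [← norm_ne_zero_iff, hBz]
      positivity
    have hevV : ∀ᶠ w in 𝓝 z, w ∈ V := hVo.mem_nhds hzV
    have hBne : ∀ᶠ w in 𝓝 z, B w ≠ 0 := (hBd z hzV).continuousAt.eventually_ne hBz0
    have hWne : ∀ᶠ w in 𝓝 z, W w ≠ 0 := (hWd z hzV).continuousAt.eventually_ne hWz
    have f1 : FP (fun w => 2 * Real.log ‖B w‖) z :=
      (FP.log_norm (hevV.mono fun w hw => hBd w hw) hBz0).smul (by norm_num)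
    have f2 : FP (fun _ => -2 * Real.log ‖W z‖ - 2 * Real.log ρ) z := FP.const _ _
    have f3 : FP (fun w => -(‖W w‖ ^ 2 / ρ ^ 2) - lam * dist (g w) q) z := by
      intro η hη
      have h1 := four_normSq hVo hWon hzV (η := η / 2 * ρ ^ 2) (by positivity)
      have h2 := H51.four_dist hU hg hz he hzs hlev (η := η / (2 * (lam + 1))) (by positivity)
      filter_upwards [h1, h2] with r h3 h4
      set Y := fderiv ℝ (fun w => e (g w)) z 1 with hY
      have hdW : fderiv ℝ W z 1 = ψ Y := by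
        have h5 : HasFDerivAt (fun w => e (g w)) (fderiv ℝ (fun w => e (g w)) z) z :=
          ((hed z hzV).restrictScalars ℝ).hasFDerivAt
        have h6 : HasFDerivAt (fun w => e (g w) - w₀) (fderiv ℝ (fun w => e (g w)) z) z :=
          h5.sub_const w₀
        have h7 : HasFDerivAt W (((ψ : E →L[ℂ] F).restrictScalars ℝ).comp
            (fderiv ℝ (fun w => e (g w)) z)) z :=
          (((ψ : E →L[ℂ] F).restrictScalars ℝ).hasFDerivAt).comp z h6
        rw [h7.fderiv]
        rfl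
      rw [hdW] at h3
      have h5 := hm (e (g z)) hzρ Y
      set N := chartG e (e (g z)) Y Y with hN
      have h6 : ∑ k : Fin 4, (-(‖W (z + r • (I ^ (k:ℕ)))‖ ^ 2 / ρ ^ 2) -
          lam * dist (g (z + r • (I ^ (k:ℕ)))) q) =
          -(1 / ρ ^ 2) * ∑ k : Fin 4, ‖W (z + r • (I ^ (k:ℕ)))‖ ^ 2 +
          lam * ∑ k : Fin 4, -dist (g (z + r • (I ^ (k:ℕ)))) q := by
        rw [Finset.mul_sum, Finset.mul_sum, ← Finset.sum_add_distrib]
        exact Finset.sum_congr rfl fun k _ => by ring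
      rw [h6]
      have h7 := mul_le_mul_of_nonneg_left h3 (show (0:ℝ) ≤ 1 / ρ ^ 2 by positivity)
      have h8 := mul_le_mul_of_nonneg_left h4 hlam0
      have h9 : lam * (η / (2 * (lam + 1))) ≤ η / 2 := by
        rw [mul_div_assoc', div_le_div_iff₀ (by positivity) (by norm_num)]
        nlinarith
      have h10 : 1 / ρ ^ 2 * (4 * ‖ψ Y‖ ^ 2) ≤ lam * c * N := by
        rw [hlam]
        have h11 := mul_le_mul_of_nonneg_left h5 (show (0:ℝ) ≤ 4 / ρ ^ 2 by positivity)
        calc 1 / ρ ^ 2 * (4 * ‖ψ Y‖ ^ 2) = 4 / ρ ^ 2 * ‖ψ Y‖ ^ 2 := by ring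
          _ ≤ 4 / ρ ^ 2 * (m * N) := h11
          _ = 4 * m / ρ ^ 2 * N := by ring
      have h11 : 1 / ρ ^ 2 * (4 * ‖W z‖ ^ 2 + (4 * ‖ψ Y‖ ^ 2 + η / 2 * ρ ^ 2) * r ^ 2) =
          4 * (‖W z‖ ^ 2 / ρ ^ 2) + (1 / ρ ^ 2 * (4 * ‖ψ Y‖ ^ 2) + η / 2) * r ^ 2 := by
        field_simp
      rw [h11] at h7
      have h12 := mul_le_mul_of_nonneg_right h10 (sq_nonneg r)
      have h13 := mul_le_mul_of_nonneg_right h9 (sq_nonneg r)
      have h14 : lam * (4 * -dist (g z) q + (- -c * N - η / (2 * (lam + 1))) * r ^ 2) =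
          -4 * (lam * dist (g z) q) + lam * c * N * r ^ 2
            - lam * (η / (2 * (lam + 1))) * r ^ 2 := by ring
      rw [h14] at h8
      linarith
    have hfp := ((f1.add f2).add f3).add hl
    refine hfp.of_le ?_ ?_
    · filter_upwards [hevV, hBne, hWne, hpos] with w h1 h2 h3 h4
      rw [hlogT w h4]
      have h5 : th e ψ w₀ ρ (g w) = min (‖W w‖ ^ 2 / ρ ^ 2) 1 := th_of_mem h1.2
      have h6 : 0 < ‖W w‖ := norm_pos_iff.2 h3
      have h7 := log_min_ge (show 0 < ‖W w‖ ^ 2 / ρ ^ 2 by positivity)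
      rw [← h5, Real.log_div (by positivity) (by positivity), Real.log_pow, Real.log_pow] at h7
      have h8 : Real.log ‖B w‖ ≤ Real.log ‖W z‖ + Real.log ‖W w‖ := by
        rw [← Real.log_mul hWzn.ne' h6.ne']
        exact Real.log_le_log (norm_pos_iff.2 h2) (norm_inner_le_norm _ _)
      push_cast at h7
      linarith
    · rw [hlogT z hth, hTz, Real.log_div (by positivity) (by positivity), Real.log_pow,
        Real.log_pow, hBz, Real.log_pow]
      push_cast
      linarith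
  · -- outside
    have hev : ∀ᶠ w in 𝓝 z, g w ∉ db e ψ w₀ ρ :=
      hgc.eventually ((isClosed_db htgt).isOpen_compl.mem_nhds hD)
    have f1 : FP (fun w => lam * -dist (g w) q) z := (fp_dist hK hU hg hz hc hlev).smul hlam0
    have hfp := ((FP.const (-1) z).add f1).add hl
    refine hfp.of_le ?_ ?_
    · filter_upwards [hev, hpos] with w h1 h4
      rw [hlogT w h4, th_of_notMem_db hρ h1, Real.log_one]
      linarith
    · rw [hlogT z hth, th_of_notMem_db hρ hD, Real.log_one]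
      linarith

end Vale.Agent.P253.H805
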